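import Vale.Agent.P267.H823.PL5
import Vale.Agent.P267.H338.Iface

/-!
# P267, Poincare-Lelong for one smooth curve (helper823)
-/

open scoped Manifold ContDiff ComplexConjugate Matrix Real
open MeasureTheory Set Filter Topology

set_option linter.unusedSectionVars false

noncomputable section

namespace Vale.Agent.P267.H823.PL

open Vale.Agent.P267.FL Vale.Agent.P267.H332 Vale.Agent.P267.H757

variable {X : Type*} [TopologicalSpace X] [ChartedSpace C2 X] [IsManifold 𝓘(ℂ, C2) ω X]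

/-- straightening of the zero set, in a chart -/
theorem exists_kappa {D : Set C2} (hD : IsOpen D) {g : C2 → ℂ} (hg : DifferentiableOn ℂ g D)
    {z₀ : C2} (hz : z₀ ∈ D) (hne : fderiv ℂ g z₀ ≠ 0) :
    ∃ κ : OpenPartialHomeomorph C2 C2, z₀ ∈ κ.source ∧ κ.source ⊆ D ∧
      (∀ z ∈ κ.source, κ z 0 = g z) ∧ DifferentiableOn ℂ κ κ.source ∧
      DifferentiableOn ℂ κ.symm κ.target := by
  have hE : Module.finrank ℂ C2 = 2 := by simp
  obtain ⟨A, hA⟩ := H62.exists_coord' hE _ hne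
  set A' : C2 ≃L[ℂ] C2 := A.trans (ContinuousLinearEquiv.finTwoArrow ℂ ℂ).symm with hA'
  have hA0 : ∀ v, A' v 0 = (A v).1 := fun v => rfl
  have hA1 : ∀ v, A' v 1 = (A v).2 := fun v => rfl
  set Φ : C2 → C2 := fun z => ![g z, A' (z - z₀) 1] with hΦ
  have hΦd : DifferentiableOn ℂ Φ D := by
    rw [differentiableOn_pi]
    intro i
    fin_cases i
    · exact hg
    · intro y _
      have h1 : DifferentiableAt ℂ (fun z : C2 => A' (z - z₀)) y := by fun_prop
      exact (differentiableAt_pi.1 h1 1).differentiableWithinAt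
  have hΦ' : HasFDerivAt Φ (A' : C2 →L[ℂ] C2) z₀ := by
    rw [hasFDerivAt_pi', Fin.forall_fin_two]
    constructor
    · have h1 : HasFDerivAt g (fderiv ℂ g z₀) z₀ :=
        (hg.differentiableAt (hD.mem_nhds hz)).hasFDerivAt
      have h2 : (ContinuousLinearMap.proj (R := ℂ) (φ := fun _ : Fin 2 => ℂ) 0).comp
          (A' : C2 →L[ℂ] C2) = fderiv ℂ g z₀ := by
        ext v
        exact hA v
      rw [h2]
      exact h1
    · have h3 : HasFDerivAt (fun z : C2 => z - z₀) (ContinuousLinearMap.id ℂ C2) z₀ :=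
        (hasFDerivAt_id z₀).sub_const z₀
      have h4 := ((ContinuousLinearMap.proj (R := ℂ) (φ := fun _ : Fin 2 => ℂ) 1).comp
        (A' : C2 →L[ℂ] C2)).hasFDerivAt (x := z₀ - z₀)
      have h5 : HasFDerivAt (fun z : C2 => A' (z - z₀) 1)
          (((ContinuousLinearMap.proj (R := ℂ) (φ := fun _ : Fin 2 => ℂ) 1).comp
            (A' : C2 →L[ℂ] C2)).comp (ContinuousLinearMap.id ℂ C2)) z₀ :=
        HasFDerivAt.comp (f := fun y : C2 => y - z₀) z₀ h4 h3
      rw [ContinuousLinearMap.comp_id] at h5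
      exact h5
  obtain ⟨κ, h1, h2, h3, h4, h5⟩ := H62.exists_homeo hD hz hΦd hΦ'
  exact ⟨κ, h1, h2, fun z _ => by rw [h3]; rfl, h4, h5⟩

theorem fderiv_ne_zero {g : X → ℂ} {U : Set X} (hU : IsOpen U)
    (hg : MDifferentiableOn 𝓘(ℂ, C2) 𝓘(ℂ) g U) {p : X} (hp : p ∈ U)
    (hne : mfderiv 𝓘(ℂ, C2) 𝓘(ℂ) g p ≠ 0) :
    fderiv ℂ (fun z => g ((chartAt C2 p).symm z)) (chartAt C2 p p) ≠ 0 := by
  set e := chartAt C2 p with he
  have hpe : p ∈ e.source := mem_chart_source C2 p
  intro h0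
  apply hne
  have hD : IsOpen (e.target ∩ e.symm ⁻¹' U) := e.symm.isOpen_inter_preimage hU
  have hfd : DifferentiableAt ℂ (fun z => g (e.symm z)) (e p) :=
    (differentiableOn_chart (chart_mem_atlas C2 p) hg).differentiableAt
      (hD.mem_nhds ⟨e.map_source hpe, by rwa [mem_preimage, e.left_inv hpe]⟩)
  have h1' : HasFDerivAt (fun z => g (e.symm z)) (0 : C2 →L[ℂ] ℂ) (e p) := by
    rw [← h0]; exact hfd.hasFDerivAt
  have h1 : HasMFDerivAt 𝓘(ℂ, C2) 𝓘(ℂ, ℂ) (fun z => g (e.symm z)) (e p) (0 : C2 →L[ℂ] ℂ) :=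
    h1'.hasMFDerivAt
  have h2 : HasMFDerivAt 𝓘(ℂ, C2) 𝓘(ℂ, C2) e p (mfderiv 𝓘(ℂ, C2) 𝓘(ℂ, C2) e p) :=
    (mdifferentiableAt_atlas (chart_mem_atlas C2 p) hpe).hasMFDerivAt
  have h3 := HasMFDerivAt.comp p h1 h2
  have h4 : g =ᶠ[𝓝 p] (fun z => g (e.symm z)) ∘ e := by
    filter_upwards [e.open_source.mem_nhds hpe] with x hx
    simp [e.left_inv hx]
  have h5 := h3.congr_of_eventuallyEq h4
  rw [h5.mfderiv]
  exact ContinuousLinearMap.zero_comp _

theorem good_on [T2Space X] [SigmaCompactSpace X] {N : X → ℝ} (hN : IsNormFn C2 N) {f : ℂ → X}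
    {S : Set X} (hc : CurveOf N f S) {F : TwoF X} (hF : F.Smooth) {p : X} {U : Set X} {g : X → ℂ}
    {ψ : X → ℝ} (hpU : p ∈ U) (h : LocRep C2 N U g ψ)
    (hne : mfderiv 𝓘(ℂ, C2) 𝓘(ℂ) g p ≠ 0) :
    ∃ V : Set X, IsOpen V ∧ p ∈ V ∧ Good N f F V := by
  have hne' := fderiv_ne_zero h.isOpen h.hol hpU hne
  set e := chartAt C2 p with he'
  have he : e ∈ atlas C2 X := chart_mem_atlas C2 p
  have hpe : p ∈ e.source := mem_chart_source C2 p
  have hD := lr_isOpen h e
  obtain ⟨κ, k1, k2, k3, k4, k5⟩ := exists_kappa hD (differentiableOn_chart he h.hol)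
    (z₀ := e p) ⟨e.map_source hpe, by rwa [mem_preimage, e.left_inv hpe]⟩ hne'
  have hV : IsOpen (e.source ∩ e ⁻¹' κ.source) := e.isOpen_inter_preimage κ.open_source
  refine ⟨_, hV, ⟨hpe, k1⟩, ?_⟩
  intro χ hχ hχc hs
  have hWt : κ.source ⊆ e.target := fun z hz => (k2 hz).1
  set K : Set C2 := e '' tsupport χ with hK
  have hKc : IsCompact K :=
    hχc.isCompact.image_of_continuousOn (e.continuousOn.mono fun x hx => (hs hx).1)
  have hKW : K ⊆ κ.source := by
    rintro _ ⟨x, hx, rfl⟩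
    exact (hs hx).2
  have hχ0 : ∀ z ∈ κ.source, z ∉ K → χ (e.symm z) = 0 := by
    intro z hz hzK
    refine image_eq_zero_of_notMem_tsupport fun hx => hzK ⟨_, hx, e.right_inv (hWt hz)⟩
  have hχW : ContinuousOn (fun z => (χ (e.symm z) : ℂ)) κ.source :=
    Complex.continuous_ofReal.comp_continuousOn
      (hχ.comp_continuousOn (e.continuousOn_symm.mono hWt))
  have hgD : ∀ z ∈ κ.source, AnalyticAt ℂ (fun z => g (e.symm z)) z := fun z hz =>
    P268.analyticAt_of_differentiableOn hD (differentiableOn_chart he h.hol) (k2 hz)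
  have hψD : ∀ z ∈ κ.source, ContDiffAt ℝ ∞ (fun z => ψ (e.symm z)) z := fun z hz =>
    (contDiffOn_chart he h.smooth).contDiffAt (hD.mem_nhds (k2 hz))
  have hψW : ContinuousOn (fun z => ψ (e.symm z)) κ.source := fun z hz =>
    (hψD z hz).continuousAt.continuousWithinAt
  have hcovW : ∀ i, ContinuousOn
      (fun z => cov (fun z => g (e.symm z)) (fun z => ψ (e.symm z)) z i) κ.source := by
    intro i z hz
    have h1 := (hol_dz (hgD z hz) i).continuousAt
    have h2 := (hgD z hz).continuousAt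
    have h3 : ContinuousAt (dz i fun z => (ψ (e.symm z) : ℂ)) z :=
      (contDiffAt_dz (m := 0) ((contDiffAt_ofReal (hψD z hz)).of_le (m := 1)
        (WithTop.coe_le_coe.2 le_top)) (by norm_num) i).continuousAt
    exact (h1.sub (h2.mul h3)).continuousWithinAt
  have hFW : ∀ i j, ContinuousOn (fun z => loc11 e F.f11 z i j) κ.source := fun i j =>
    (hF.s11 e he i j).continuousOn.mono hWt
  set q : C2 → ℂ := fun z => (χ (e.symm z) : ℂ) *
    qf (cov (fun z => g (e.symm z)) (fun z => ψ (e.symm z)) z) (loc11 e F.f11 z) with hq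
  have hqW : ContinuousOn q κ.source := by
    have c : ∀ i, ContinuousOn
        (fun z => conj (cov (fun z => g (e.symm z)) (fun z => ψ (e.symm z)) z i)) κ.source :=
      fun i => Complex.continuous_conj.comp_continuousOn (hcovW i)
    exact hχW.mul ((((((hcovW 0).mul (c 0)).mul (hFW 1 1)).add
      (((hcovW 1).mul (c 1)).mul (hFW 0 0))).sub
      (((hcovW 0).mul (c 1)).mul (hFW 1 0))).sub (((hcovW 1).mul (c 0)).mul (hFW 0 1)))
  have hq0 : ∀ z ∈ κ.source, z ∉ K → q z = 0 := fun z hz hzK => by simp [hq, hχ0 z hz hzK]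
  obtain ⟨t1, t2⟩ := tendsto_flat k5 k3 hψW hqW hKc hKW hq0
  -- integrability on the slice
  have hTm : MeasurableSet {w : ℂ | iot (0, w) ∈ κ.target} :=
    (κ.open_target.preimage (f := fun w : ℂ => iot (0, w))
      (iot.continuous.comp (by fun_prop))).measurableSet
  have hint : IntegrableOn (fun w => (adet κ.symm (iot (0, w)) : ℂ) * q (κ.symm (iot (0, w))))
      {w : ℂ | iot (0, w) ∈ κ.target} := by
    rw [← integrable_indicator_iff hTm]
    refine t1.congr (Eventually.of_forall fun w => ?_)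
    simp only [Function.comp_apply]
    by_cases hw : iot (0, w) ∈ κ.target
    · rw [indicator_of_mem (show ((0 : ℂ), w) ∈ iot ⁻¹' κ.target from hw),
        indicator_of_mem (show w ∈ {w : ℂ | iot (0, w) ∈ κ.target} from hw)]
    · rw [indicator_of_notMem (show ((0 : ℂ), w) ∉ iot ⁻¹' κ.target from hw),
        indicator_of_notMem (show w ∉ {w : ℂ | iot (0, w) ∈ κ.target} from hw)]
  obtain ⟨s1, s2⟩ := slice_eq hc h he k2 k4 k5 k3 F χ hs hint
  refine ⟨s1, ?_⟩
  have hW0 : volume {z ∈ κ.source | N (e.symm z) = 0} = 0 := by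
    refine measure_mono_null ?_ (volume_zero k5 k3)
    rintro z ⟨hz, hz0⟩
    exact ⟨hz, (h.eq_zero_iff (k2 hz).2).1 hz0⟩
  have key := good_aux hN h he κ.open_source k2 hW0 hF hχ hχc hs
    (J := π * ∫ t, (χ (f t) : ℂ) * pbC f F t) ?_
  · have e1 : -4 * (π * ∫ t, (χ (f t) : ℂ) * pbC f F t) =
        -(4 * π) * ∫ t, (χ (f t) : ℂ) * pbC f F t := by ring
    rwa [e1] at key
  · rw [← s2]
    refine t2.congr fun ε => ?_
    refine setIntegral_congr_fun κ.open_source.measurableSet fun z hz => ?_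
    simp only [hq]
    rw [h.eq _ (k2 hz).2]

/-- Poincaré–Lelong, general form: the compact set `K` contains the supports of all integrands. -/
theorem poincare_lelong_gen [T2Space X] [SigmaCompactSpace X] {N : X → ℝ} (hN : IsNormFn C2 N)
    {f : ℂ → X} {S : Set X} (hc : CurveOf N f S)
    (hred : ∀ p, N p = 0 → ∃ U g ψ, p ∈ U ∧ LocRep C2 N U g ψ ∧ mfderiv 𝓘(ℂ, C2) 𝓘(ℂ) g p ≠ 0)
    {F : TwoF X} (hF : F.Smooth) {K : Set X} (hK : IsCompact K)
    (h1 : ∀ t, f t ∉ K → pbC f F t = 0) (h2 : ∀ x ∉ K, (cF N).wedge F x = 0)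
    (h3 : ∀ ε > 0, ∀ x ∉ K, (cF (Neps N ε)).wedge F x = 0)
    (h4 : ∀ ε > 0, intX ((cF (Neps N ε)).wedge F) = 0) :
    Integrable (pbC f F) ∧ intX ((cF N).wedge F) = -(4 * π) * ∫ t, pbC f F t := by
  classical
  have : LocallyCompactSpace X := ChartedSpace.locallyCompactSpace C2 X
  have hgood : ∀ p, ∃ V : Set X, IsOpen V ∧ p ∈ V ∧ Good N f F V := by
    intro p
    by_cases hp : N p = 0
    · obtain ⟨U, g, ψ, hpU, h, hne⟩ := hred p hp
      exact good_on hN hc hF hpU h hne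
    · exact good_off hN hc hF hp
  choose V hVo hpV hV using hgood
  obtain ⟨T, hT⟩ := hK.elim_finite_subcover V hVo fun x _ => mem_iUnion.2 ⟨x, hpV x⟩
  have hcov : K ⊆ ⋃ i : Fin T.card, V (T.equivFin.symm i) := by
    intro x hx
    obtain ⟨y, hyT, hxy⟩ := mem_iUnion₂.1 (hT hx)
    exact mem_iUnion.2 ⟨T.equivFin ⟨y, hyT⟩, by rwa [Equiv.symm_apply_apply]⟩
  obtain ⟨χ, c1, c2, -, c4⟩ := exists_continuous_sum_one_of_isOpen_isCompact
    (s := fun i : Fin T.card => V (T.equivFin.symm i)) (fun i => hVo _) hK hcov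
  have hsum1 : ∀ x ∈ K, ∑ i, χ i x = 1 := by
    intro x hx
    have := c2 hx
    simpa using this
  have hloc := fun i => hV _ (χ i) (χ i).continuous (c4 i) (c1 i)
  -- the pull-back
  have hpb : ∀ t, ∑ i, (χ i (f t) : ℂ) * pbC f F t = pbC f F t := by
    intro t
    rw [← Finset.sum_mul]
    by_cases hx : f t ∈ K
    · have := hsum1 _ hx
      rw [← Complex.ofReal_sum, this, Complex.ofReal_one, one_mul]
    · rw [h1 t hx, mul_zero]
  have hpbi : Integrable (pbC f F) := by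
    have h1 : Integrable (fun t => ∑ i, (χ i (f t) : ℂ) * pbC f F t) :=
      integrable_finsetSum _ fun i _ => (hloc i).1
    exact h1.congr (Eventually.of_forall hpb)
  refine ⟨hpbi, ?_⟩
  -- the decomposition of the integral
  have hdec : ∀ {N' : X → ℝ}, IsNormFn C2 N' → (∀ x ∉ K, (cF N').wedge F x = 0) →
      intX ((cF N').wedge F) = ∑ i, intV (fun x => (χ i x : ℂ) * (cF N').wedge F x) := by
    intro N' hN' h0
    have hreg : Reg2 ∞ 1 ((cF N').wedge F) := reg2_wedge (cF_smooth hN') hF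
    have hcs : HasCompactSupport ((cF N').wedge F) := HasCompactSupport.intro hK h0
    rw [intX_eq_intV (integrableX_of_smooth hreg hcs) hcs, ← intV_sum _ fun i _ =>
      integrableX_mul (χ i).continuous (c4 i) hreg]
    congr 1
    funext x
    rw [Finset.sum_apply, ← Finset.sum_mul]
    by_cases hx : x ∈ K
    · rw [← Complex.ofReal_sum, hsum1 _ hx, Complex.ofReal_one, one_mul]
    · rw [h0 x hx, mul_zero]
  have hlim : Tendsto (fun ε : ℝ => ∑ i, intV (fun x => (χ i x : ℂ) *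
      (cF (Neps N ε)).wedge F x)) (𝓝[>] 0)
      (𝓝 (∑ i, (-(4 * π) * (∫ t, (χ i (f t) : ℂ) * pbC f F t) -
        intV (fun x => (χ i x : ℂ) * (cF N).wedge F x)))) :=
    tendsto_finsetSum _ fun i _ => (hloc i).2
  have hzero : Tendsto (fun ε : ℝ => ∑ i, intV (fun x => (χ i x : ℂ) *
      (cF (Neps N ε)).wedge F x)) (𝓝[>] 0) (𝓝 0) := by
    refine tendsto_const_nhds.congr' ?_
    filter_upwards [self_mem_nhdsWithin] with ε hε
    have hε' : (0 : ℝ) < ε := hε
    rw [← hdec (isNormFn_eps hN hε') (h3 ε hε')]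
    exact (h4 ε hε').symm
  have hfin := tendsto_nhds_unique hlim hzero
  rw [Finset.sum_sub_distrib, ← hdec hN h2, ← Finset.mul_sum, ← integral_finsetSum _ fun i _ =>
    (hloc i).1] at hfin
  simp only [hpb] at hfin
  exact (sub_eq_zero.1 hfin).symm

/-- **Poincaré–Lelong for one smooth curve**, closed forms with compact support. -/
theorem poincare_lelong [T2Space X] [SigmaCompactSpace X] {N : X → ℝ} (hN : IsNormFn C2 N)
    {f : ℂ → X} {S : Set X} (hc : CurveOf N f S)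
    (hred : ∀ p, N p = 0 → ∃ U g ψ, p ∈ U ∧ LocRep C2 N U g ψ ∧ mfderiv 𝓘(ℂ, C2) 𝓘(ℂ) g p ≠ 0)
    {F : TwoF X} (hF : F.Smooth) (hcl : F.Closed) (hs : IsCompact (supp2 F)) :
    Integrable (pbC f F) ∧ intX ((cF N).wedge F) = -(4 * π) * ∫ t, pbC f F t := by
  have h0 : ∀ {N' : X → ℝ}, ∀ x ∉ supp2 F, (cF N').wedge F x = 0 := by
    intro N' x hx
    obtain ⟨h1, h2, h3⟩ := eq_zero_of_notMem_supp2 hx
    simp [TwoF.wedge, h1, h2, h3]
  refine poincare_lelong_gen hN hc hred hF hs (fun t hx => ?_) h0 (fun ε _ => h0) fun ε hε => ?_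
  · obtain ⟨-, h2, -⟩ := eq_zero_of_notMem_supp2 hx
    simp [pbC, h2]
  · refine intX_cF_wedge_eq_zero stokesD (isNormFn_eps hN hε) hF hcl hs fun x _ => ?_
    have := hN.nonneg x
    rw [Neps]
    positivity

/-- the curvature of a constant norm function -/
theorem curvN_const {c : ℝ} (hc : 0 < c) {N : X → ℝ} (hN : IsNormFn C2 N) {x : X}
    (h : N =ᶠ[𝓝 x] fun _ => c) : curvN N x = 0 := by
  have hrep : LocRep C2 (fun _ : X => c) univ (fun _ => 1) (fun _ => -Real.log c) := by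
    refine ⟨isOpen_univ, mdifferentiableOn_const, fun V _ _ hne => ⟨hne.some, hne.some_mem,
      one_ne_zero⟩, contMDiffOn_const, fun x _ => ?_⟩
    rw [norm_one, one_pow, one_mul, neg_neg, Real.exp_log hc]
  rw [curvN_congr hN h, curvN_eq hrep (mem_univ x)]
  exact ddz_const _ _

theorem contMDiff_log_eps {N : X → ℝ} (hN : IsNormFn C2 N) {ε : ℝ} (hε : 0 < ε) (c : ℝ) :
    ContMDiff 𝓘(ℝ, C2) 𝓘(ℝ) ∞ (fun x => Real.log (N x + ε) - c) := by
  intro x
  have h1 : ContMDiffAt 𝓘(ℝ, C2) 𝓘(ℝ) ∞ (fun x => N x + ε) x :=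
    hN.smooth.contMDiffAt.add contMDiffAt_const
  have hp : 0 < N x + ε := by
    have := hN.nonneg x
    linarith
  exact (ContMDiffAt.comp (g := Real.log) x
    (Real.contDiffAt_log.2 hp.ne').contMDiffAt h1).sub contMDiffAt_const

/-- the regularised curvature form is exact with compactly supported primitive if `N = 1` off a
compact set -/
theorem intX_eps_eq_zero [T2Space X] [SigmaCompactSpace X] {N : X → ℝ} (hN : IsNormFn C2 N)
    {K : Set X} (hK : IsCompact K) (hN1 : ∀ x ∉ K, N x = 1) {F : TwoF X} (hF : F.Smooth)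
    (hcl : F.Closed) {ε : ℝ} (hε : 0 < ε) : intX ((cF (Neps N ε)).wedge F) = 0 := by
  set u : X → ℝ := fun x => Real.log (N x + ε) - Real.log (1 + ε) with hu
  have hus : ContMDiff 𝓘(ℝ, C2) 𝓘(ℝ) ∞ u := contMDiff_log_eps hN hε _
  have hu0 : ∀ x ∉ K, u x = 0 := fun x hx => by simp [hu, hN1 x hx]
  have hsupp : IsCompact (supp1 (dbarF u)) := by
    refine hK.of_isClosed_subset isClosed_closure (closure_minimal ?_ hK.isClosed)
    rintro x (hx | hx)
    · exact absurd rfl hx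
    · by_contra hxK
      apply hx
      have h0 : (fun y : X => (u y : ℂ)) =ᶠ[𝓝 x] fun _ => 0 := by
        filter_upwards [hK.isClosed.isOpen_compl.mem_nhds hxK] with y hy
        simp [hu0 y hy]
      funext i
      simp only [dbarF, dbar0]
      have h1 : loc0 0 (chartAt C2 x) (fun y : X => (u y : ℂ)) =ᶠ[𝓝 (chartAt C2 x x)]
          fun _ => 0 := by
        rw [loc0_zero']
        have hc : Tendsto (chartAt C2 x).symm (𝓝 (chartAt C2 x x)) (𝓝 x) := by
          have := (chartAt C2 x).continuousAt_symm (mem_chart_target C2 x)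
          rw [ContinuousAt, (chartAt C2 x).left_inv (mem_chart_source C2 x)] at this
          exact this
        exact hc.eventually h0
      rw [dzb_congr h1, dzb_const]
      rfl
  have hw : (cF (Neps N ε)).wedge F = (dbarF u).d.wedge F := by
    funext x
    have h11 : (dbarF u).d.f11 x = curvN (Neps N ε) x := by
      have e1 := (contDiffAt_chart_of_contMDiff hus (chart_mem_atlas C2 x)
        (mem_chart_target C2 x)).of_le (m := 2) (WithTop.coe_le_coe.2 le_top)
      have e2 := (contDiffAt_chart_of_contMDiff (contMDiff_log_eps hN hε 0)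
        (chart_mem_atlas C2 x) (mem_chart_target C2 x)).of_le (m := 2)
        (WithTop.coe_le_coe.2 le_top)
      rw [dbarF_d_f11, ddb_eq e1, curvN_eq (locRep_eps hN hε) (mem_univ x)]
      have e3 : (fun y => (u ((chartAt C2 x).symm y) : ℂ)) = fun y =>
          ((Real.log (N ((chartAt C2 x).symm y) + ε) - 0 : ℝ) : ℂ) -
            (Real.log (1 + ε) : ℂ) := by
        funext y
        simp [hu]
      rw [e3, ddz_sub e2 contDiffAt_const, ddz_const, sub_zero]
      simp only [sub_zero]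
    simp only [TwoF.wedge, h11, dbarF_d_f20, dbarF_d_f02 hus, cF]
  rw [hw]
  exact stokesD _ _ (dbarF_smooth hus) hsupp hF hcl

/-- **Poincaré–Lelong for one smooth curve**, norm functions which are `1` off a compact set;
arbitrary closed forms. -/
theorem poincare_lelong_one [T2Space X] [SigmaCompactSpace X] {N : X → ℝ} (hN : IsNormFn C2 N)
    {f : ℂ → X} {S : Set X} (hc : CurveOf N f S)
    (hred : ∀ p, N p = 0 → ∃ U g ψ, p ∈ U ∧ LocRep C2 N U g ψ ∧ mfderiv 𝓘(ℂ, C2) 𝓘(ℂ) g p ≠ 0)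
    {K : Set X} (hK : IsCompact K) (hN1 : ∀ x ∉ K, N x = 1)
    {F : TwoF X} (hF : F.Smooth) (hcl : F.Closed) :
    Integrable (pbC f F) ∧ intX ((cF N).wedge F) = -(4 * π) * ∫ t, pbC f F t := by
  have hev : ∀ x ∉ K, ∀ᶠ y in 𝓝 x, N y = 1 := fun x hx => by
    filter_upwards [hK.isClosed.isOpen_compl.mem_nhds hx] with y hy
    exact hN1 y hy
  refine poincare_lelong_gen hN hc hred hF hK (fun t hx => ?_) (fun x hx => ?_)
    (fun ε hε x hx => ?_) fun ε hε => intX_eps_eq_zero hN hK hN1 hF hcl hε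
  · have h1 := hN1 _ hx
    rw [hc.zero t] at h1
    exact absurd h1 zero_ne_one
  · have := curvN_const one_pos hN (hev x hx)
    simp [TwoF.wedge, cF, this]
  · have h1 : Neps N ε =ᶠ[𝓝 x] fun _ => (1 + ε)⁻¹ := by
      filter_upwards [hev x hx] with y hy
      rw [Neps, hy]
    have := curvN_const (by positivity) (isNormFn_eps hN hε) h1
    simp [TwoF.wedge, cF, this]

theorem curveOf_P1 (φ : H338.EmbP1 X) {N : X → ℝ} (hz : ∀ x, N x = 0 ↔ x ∈ φ.image) :
    CurveOf N φ.f₀ {φ.f₁ 0} :=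
  ⟨φ.holo₀, φ.inj, countable_singleton _, fun t => (hz _).2 (φ.mem_image_f₀ t),
    fun x hx => (hz x).1 hx⟩

/-- **Poincaré–Lelong for an embedded projective line**, parametrised by `φ.f₀`. -/
theorem poincare_lelong_P1 [T2Space X] [SigmaCompactSpace X] (φ : H338.EmbP1 X) {N : X → ℝ}
    (hN : IsNormFn C2 N) (hz : ∀ x, N x = 0 ↔ x ∈ φ.image)
    (hred : ∀ p, N p = 0 → ∃ U g ψ, p ∈ U ∧ LocRep C2 N U g ψ ∧ mfderiv 𝓘(ℂ, C2) 𝓘(ℂ) g p ≠ 0)
    {F : TwoF X} (hF : F.Smooth) (hcl : F.Closed) (hs : IsCompact (supp2 F)) :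
    Integrable (pbC φ.f₀ F) ∧ intX ((cF N).wedge F) = -(4 * π) * ∫ t, pbC φ.f₀ F t :=
  poincare_lelong hN (curveOf_P1 φ hz) hred hF hcl hs

/-- the same for norm functions which are `1` off a compact set -/
theorem poincare_lelong_P1' [T2Space X] [SigmaCompactSpace X] (φ : H338.EmbP1 X) {N : X → ℝ}
    (hN : IsNormFn C2 N) (hz : ∀ x, N x = 0 ↔ x ∈ φ.image)
    (hred : ∀ p, N p = 0 → ∃ U g ψ, p ∈ U ∧ LocRep C2 N U g ψ ∧ mfderiv 𝓘(ℂ, C2) 𝓘(ℂ) g p ≠ 0)
    {K : Set X} (hK : IsCompact K) (hN1 : ∀ x ∉ K, N x = 1)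
    {F : TwoF X} (hF : F.Smooth) (hcl : F.Closed) :
    Integrable (pbC φ.f₀ F) ∧ intX ((cF N).wedge F) = -(4 * π) * ∫ t, pbC φ.f₀ F t :=
  poincare_lelong_one hN (curveOf_P1 φ hz) hred hK hN1 hF hcl

end Vale.Agent.P267.H823.PL
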