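import Vale.Agent.P267.H823.PL9
import Vale.Agent.P267.H399.LBCurv

/-!
# P267, the adjunction formula for embedded projective lines (helper823)
-/

open scoped Manifold ContDiff ComplexConjugate Matrix Real
open MeasureTheory Set Filter Topology

set_option linter.unusedSectionVars false

noncomputable section

namespace Vale.Agent.P267.H823.PL

open Vale.Agent.P267.FL Vale.Agent.P267.H332 Vale.Agent.P267.H757
open Vale.Agent.P267.H662 (lgn contDiffAt_lgn conn imA)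

variable {X : Type*} [TopologicalSpace X] [ChartedSpace C2 X] [IsManifold 𝓘(ℂ, C2) ω X]
variable {ι : Type} [Fintype ι] [DecidableEq ι]

theorem pbC_add (f : ℂ → X) (F G : TwoF X) (t : ℂ) : pbC f (F + G) t = pbC f F t + pbC f G t := by
  simp only [pbC, TwoF.f11_add, Pi.add_apply, Matrix.add_apply, add_mul, Finset.sum_add_distrib]

theorem pbC_smul (f : ℂ → X) (c : ℂ) (F : TwoF X) (t : ℂ) : pbC f (c • F) t = c * pbC f F t := by
  simp only [pbC, TwoF.f11_smul, Pi.smul_apply, Matrix.smul_apply, smul_eq_mul, Finset.mul_sum,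
    mul_assoc]

/-- the pull-back of an exact form is integrable with integral zero -/
theorem pbC_d_P1 (φ : P1Map X) {A : OneF X} (hA : A.Smooth) :
    Integrable (pbC φ.f₀ A.d) ∧ ∫ t, pbC φ.f₀ A.d t = 0 := by
  refine ⟨?_, integral_pbC_d φ hA⟩
  have c : ∀ {g : ℂ → ℂ}, ContDiff ℝ ∞ g → ContDiff ℝ 1 g := fun h => h.of_le (by simp)
  obtain ⟨i1, -⟩ := stokes_D1 (c (contDiff_pb01 φ.holo₀ hA.s01)) (c (contDiff_pb01 φ.holo₁ hA.s01))
    fun t ht => pb01_glue φ A.f01 ht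
  obtain ⟨i2, -⟩ := stokes_Db (c (contDiff_pb10 φ.holo₀ hA.s10)) (c (contDiff_pb10 φ.holo₁ hA.s10))
    fun t ht => pb10_glue φ A.f10 ht
  exact (i1.sub i2).congr (Eventually.of_forall fun t => (pbC_d φ.holo₀ hA t).symm)

/-- the curvature of the connection `P d` and the Chern curvature have the same integral -/
theorem integral_chern (φ : P1Map X) (L : LB X ι) {a : X → Fin 2 → ℂ} (ha : Reg1 ∞ 0 a) :
    Integrable (pbC φ.f₀ (L.chern a)) ∧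
      ∫ t, pbC φ.f₀ (L.chern a) t = ∫ t, pbC φ.f₀ L.curv t := by
  have h1 : ∀ t, pbC φ.f₀ (L.chern a) t = pbC φ.f₀ L.curv t + pbC φ.f₀ (imA a).d t := fun t => by
    rw [H662.chern_eq, pbC_add]
  obtain ⟨i1, z1⟩ := pbC_d_P1 φ (H662.imA_smooth ha)
  have i2 := integrable_pbC φ L.curv_smooth
  refine ⟨(i2.add i1).congr (Eventually.of_forall fun t => (h1 t).symm), ?_⟩
  simp only [h1]
  rw [integral_add i2 i1, z1, add_zero]

/-- `∂∂̄ log adjG` is minus the pull-back of the curvatures -/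
theorem adj_point {N : X → ℝ} {LK : LB X ι} {σ : X → EuclideanSpace ℂ ι}
    (hσ : Reg0 ∞ (-1) σ) (hs : LK.Sec σ) (hσ0 : ∀ x, σ x ≠ 0) {f : ℂ → X}
    (hf : MDifferentiable 𝓘(ℂ) 𝓘(ℂ, C2) f) (hNf : ∀ s, N (f s) = 0)
    (himm : ∀ t, Function.Injective (mfderiv 𝓘(ℂ) 𝓘(ℂ, C2) f t))
    (hred : ∀ p, N p = 0 → ∃ U g ψ, p ∈ U ∧ LocRep C2 N U g ψ ∧ mfderiv 𝓘(ℂ, C2) 𝓘(ℂ) g p ≠ 0) :
    (∀ t, 0 < adjG N σ f t) ∧ ContDiff ℝ 2 (fun t => Real.log (adjG N σ f t)) ∧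
    ∀ t, D1 (Db fun s => ((Real.log (adjG N σ f s) : ℝ) : ℂ)) t =
      -(pbC f (cF N) t) - pbC f (LK.chern (conn (-1) σ)) t := by
  have h1 : ∀ t, 0 < adjG N σ f t ∧
      ContDiffAt ℝ 2 (fun s => ((Real.log (adjG N σ f s) : ℝ) : ℂ)) t ∧
      D1 (Db fun s => ((Real.log (adjG N σ f s) : ℝ) : ℂ)) t =
        -(pbC f (cF N) t) - pbC f (LK.chern (conn (-1) σ)) t := by
    intro t
    obtain ⟨U, g, ψ, htU, h, hne⟩ := hred (f t) (hNf t)
    obtain ⟨k1, k2, k3⟩ := adj_main h hσ hσ0 hf hNf (himm t) htU hne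
    refine ⟨k1, k2, ?_⟩
    rw [k3]
    have e1 : pbC f (cF N) t = ∑ i, ∑ j,
        ddz (fun y => (ψ ((chartAt C2 (f t)).symm y) : ℂ)) (chartAt C2 (f t) (f t)) i j *
        (vel f (chartAt C2 (f t)) t i * conj (vel f (chartAt C2 (f t)) t j)) := by
      rw [← curvN_eq h htU]
      rfl
    have e2 : pbC f (LK.chern (conn (-1) σ)) t = -∑ i, ∑ j,
        ddz (lgn (loc0 (-1) (chartAt C2 (f t)) σ)) (chartAt C2 (f t) (f t)) i j *
        (vel f (chartAt C2 (f t)) t i * conj (vel f (chartAt C2 (f t)) t j)) := by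
      rw [pbC, ← Finset.sum_neg_distrib]
      refine Finset.sum_congr rfl fun i _ => ?_
      rw [← Finset.sum_neg_distrib]
      refine Finset.sum_congr rfl fun j _ => ?_
      rw [(H662.nvSec_of_reg hσ hs hσ0 (f t)).chern11 (Eventually.of_forall fun y i =>
        H662.db0_conn LK (hs y) (hσ0 y) i), ddz_apply]
      ring
    rw [e1, e2]
    ring
  refine ⟨fun t => (h1 t).1, ?_, fun t => (h1 t).2.2⟩
  rw [contDiff_iff_contDiffAt]
  intro t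
  have h2 := (Complex.reCLM.contDiff (n := 2)).contDiffAt.comp t (h1 t).2.1
  exact h2

/-- the two coordinate planes -/
theorem adjG_glue (φ : P1Map X) (N : X → ℝ) (σ : X → EuclideanSpace ℂ ι) {t : ℂ} (ht : t ≠ 0) :
    adjG N σ φ.f₀ t = ‖t‖ ^ 4 * adjG N σ φ.f₁ t⁻¹ := by
  have h1 := vel_glue φ (chart_mem_atlas C2 (φ.f₀ t)) ht (mem_chart_source C2 (φ.f₀ t))
  rw [adjG, adjG, h1]
  simp only [Pi.smul_apply, smul_eq_mul, norm_mul, norm_neg, norm_inv, norm_pow]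
  rw [φ.glue t ht]
  have h2 : ‖t‖ ≠ 0 := norm_ne_zero_iff.2 ht
  set a := ‖vel φ.f₁ (chartAt C2 (φ.f₁ t⁻¹)) t⁻¹ 0‖
  set b := ‖vel φ.f₁ (chartAt C2 (φ.f₁ t⁻¹)) t⁻¹ 1‖
  have h3 : ((‖t‖ ^ 2)⁻¹ * a) ^ 2 + ((‖t‖ ^ 2)⁻¹ * b) ^ 2 = (‖t‖ ^ 4)⁻¹ * (a ^ 2 + b ^ 2) := by
    field_simp
  rw [h3, div_mul_eq_div_div_swap, div_inv_eq_mul]
  ring

/-- **Adjunction formula**: `deg (K ⊗ 𝒪(C))|_C = -2`, for an embedded projective line `C` which is
the reduced zero set of the norm function `N`. -/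
theorem adjunction (φ : H338.EmbP1 X) {N : X → ℝ} (hN : IsNormFn C2 N)
    (hz : ∀ x, N x = 0 ↔ x ∈ φ.image)
    (hred : ∀ p, N p = 0 → ∃ U g ψ, p ∈ U ∧ LocRep C2 N U g ψ ∧ mfderiv 𝓘(ℂ, C2) 𝓘(ℂ) g p ≠ 0)
    {LK : LB X ι} (hK : RR.IsCanon LK) :
    (∫ t, pbC φ.f₀ LK.curv t) + ∫ t, pbC φ.f₀ (cF N) t = -(2 * π) := by
  obtain ⟨σ, hσ, hs, hσ0⟩ := hK
  have hN0 : ∀ s, N (φ.f₀ s) = 0 := fun s => (hz _).2 (φ.mem_image_f₀ s)
  have hN1 : ∀ s, N (φ.f₁ s) = 0 := fun s => (hz _).2 (φ.mem_image_f₁ s)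
  obtain ⟨p0, c0, d0⟩ := adj_point hσ hs hσ0 φ.holo₀ hN0 φ.imm₀ hred
  obtain ⟨p1, c1, -⟩ := adj_point hσ hs hσ0 φ.holo₁ hN1 φ.imm₁ hred
  have hgb := gauss_bonnet c0 c1 (c := 0) (k := 2) fun t ht => by
    have h2 : 0 < ‖t‖ := norm_pos_iff.2 ht
    rw [adjG_glue φ.toP1Map N σ ht, Real.log_mul (by positivity) (p1 _).ne', Real.log_pow,
      Real.log_pow]
    push_cast
    ring
  obtain ⟨i1, z1⟩ := integral_chern φ.toP1Map LK (H662.reg1_conn hσ hσ0)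
  have i2 := integrable_pbC φ.toP1Map (cF_smooth hN)
  simp only [d0] at hgb
  have hsub : ∫ t, (-(pbC φ.f₀ (cF N) t) - pbC φ.f₀ (LK.chern (conn (-1) σ)) t) =
      -(∫ t, pbC φ.f₀ (cF N) t) - ∫ t, pbC φ.f₀ (LK.chern (conn (-1) σ)) t := by
    rw [← integral_neg]
    exact integral_sub i2.neg i1
  rw [hsub, z1] at hgb
  have h3 : (∫ t, pbC φ.f₀ LK.curv t) + ∫ t, pbC φ.f₀ (cF N) t = -((2 : ℝ) * π) := by
    rw [← hgb]
    ring
  rw [h3]
  push_cast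
  ring

/-- **Adjunction**, intersection numbers: `C` is the zero set of `N`, `N = 1` off a compact set -/
theorem adjunction_int [T2Space X] [SigmaCompactSpace X] (φ : H338.EmbP1 X) {N : X → ℝ}
    (hN : IsNormFn C2 N) (hz : ∀ x, N x = 0 ↔ x ∈ φ.image)
    (hred : ∀ p, N p = 0 → ∃ U g ψ, p ∈ U ∧ LocRep C2 N U g ψ ∧ mfderiv 𝓘(ℂ, C2) 𝓘(ℂ) g p ≠ 0)
    {K : Set X} (hK : IsCompact K) (hN1 : ∀ x ∉ K, N x = 1) {LK : LB X ι} (hLK : RR.IsCanon LK) :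
    intX ((cF N).wedge LK.curv) + intX ((cF N).wedge (cF N)) = 8 * π ^ 2 := by
  rw [(poincare_lelong_P1' φ hN hz hred hK hN1 LK.curv_smooth LK.curv_closed).2,
    (poincare_lelong_P1' φ hN hz hred hK hN1 (cF_smooth hN) (cF_closed hN)).2, ← mul_add,
    adjunction φ hN hz hred hLK]
  ring

/-- **Adjunction** on a compact surface: `K·C + C·C = -2` up to the factor `-1/4π²` -/
theorem adjunction_compact [T2Space X] [CompactSpace X] (φ : H338.EmbP1 X) {N : X → ℝ}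
    (hN : IsNormFn C2 N) (hz : ∀ x, N x = 0 ↔ x ∈ φ.image)
    (hred : ∀ p, N p = 0 → ∃ U g ψ, p ∈ U ∧ LocRep C2 N U g ψ ∧ mfderiv 𝓘(ℂ, C2) 𝓘(ℂ) g p ≠ 0)
    {LK : LB X ι} (hLK : RR.IsCanon LK) :
    intX ((cF N).wedge LK.curv) + intX ((cF N).wedge (cF N)) = 8 * π ^ 2 :=
  adjunction_int φ hN hz hred isCompact_univ (fun x hx => absurd (mem_univ x) hx) hLK

end Vale.Agent.P267.H823.PL
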