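import Vale.Agent.P267.H823.Comp

/-!
# P267, D3 (helper823): decomposition of an effective divisor on a compact surface
-/

open Filter Topology
open scoped Manifold ContDiff
open Vale.Agent.P272.K
open Vale.Agent.P267.H815 (UnitN Assoc Sing)

set_option linter.unusedSectionVars false

namespace Vale.Agent.P267.H823

variable {X : Type*} [TopologicalSpace X] [ChartedSpace (Cm 2) X] [IsManifold 𝓘(ℂ, Cm 2) ω X]

/-- `C` is reduced and irreducible: the points of its support where the local equation has nonzero
differential form a connected dense subset with finite complement. -/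
structure Prime (C : EffDiv X) : Prop where
  nonempty : C.supp.Nonempty
  conn : IsConnected (C.supp \ Sing C)
  dense : C.supp ⊆ closure (C.supp \ Sing C)
  fin : (Sing C).Finite

theorem exists_components [CompactSpace X] (D : EffDiv X) :
    ∃ (n : ℕ) (C : Fin n → EffDiv X) (m : Fin n → ℕ), (∀ c, 0 < m c) ∧ (∀ c, Prime (C c)) ∧
      (∀ x, Assoc (D.f x) (fun z => ∏ c, (C c).f x z ^ m c) x) ∧
      (∀ c c', c ≠ c' → (C c).supp ≠ (C c').supp ∧ ((C c).supp ∩ (C c').supp).Finite) ∧
      ∀ c, IsComp D ((C c).supp ∩ Rg D) ∧ (C c).supp = closure ((C c).supp ∩ Rg D) := by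
  classical
  have hfin : Finite {c : Set X // IsComp D c} := finite_isComp D
  obtain ⟨n, ⟨e⟩⟩ := Finite.exists_equiv_fin {c : Set X // IsComp D c}
  have hE : ∀ c : {c : Set X // IsComp D c}, ∃ C : EffDiv X, ∀ x, C.f x = (dat D x).fc c.1 :=
    fun c => exists_comp D c.1 c.2
  choose C hC using hE
  set k : Fin n → {c : Set X // IsComp D c} := fun a => e.symm a with hk
  have hkinj : Function.Injective k := e.symm.injective
  refine ⟨n, fun a => C (k a), fun a => mlt D (IsComp.nonempty (k a).2).some, fun a => ?_,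
    fun a => ?_, fun x => ?_, fun a b hab => ?_, fun a => ?_⟩
  · exact mlt_pos (IsComp.subset (k a).2 (IsComp.nonempty (k a).2).some_mem)
  · have hc := (k a).2
    have hCa := hC (k a)
    have h1 := subset_smooth hc hCa
    refine ⟨(isConnected_smooth hc hCa).nonempty.mono Set.sdiff_subset, isConnected_smooth hc hCa,
      ?_, ?_⟩
    · exact (supp_subset_closure hCa).trans (closure_mono h1)
    · refine (finite_supp_diff_Rg D).subset ?_
      intro y hy
      have h2 : y ∉ (k a).1 := fun h => (h1 h).2 hy
      have h3 : y ∉ Rg D := by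
        intro h
        rw [← supp_inter_Rg hc hCa] at h2
        exact h2 ⟨hy.1, h⟩
      refine ⟨?_, h3⟩
      have h4 : (C (k a)).supp ⊆ D.supp := by
        rw [supp_eq_closure hc hCa]
        exact closure_minimal (hc.subset.trans (Rg_subset_supp D)) (H815.isClosed_supp D)
      exact h4 hy.1
  · -- the decomposition
    set d := dat D x with hd
    refine ⟨d.u, ⟨(d.holu x d.mem).1, (d.holu x d.mem).2⟩, ?_⟩
    filter_upwards [d.isOpen.mem_nhds d.mem] with z hz
    rw [d.eq z hz]
    congr 1
    -- the component of a branch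
    have hcomp : ∀ i : d.ι, ∃ a : Fin n, d.B i ⊆ (k a).1 := by
      intro i
      obtain ⟨b, hb⟩ := (d.conn i).nonempty
      have hbR := d.B_subset i hb
      refine ⟨e ⟨_, b, hbR, rfl⟩, ?_⟩
      rw [hk]
      simp only [Equiv.symm_apply_apply]
      exact (d.conn i).isPreconnected.subset_connectedComponentIn hb (d.B_subset i)
    choose κ hκ using hcomp
    have huniq : ∀ i a, d.B i ⊆ (k a).1 → κ i = a := by
      intro i a ha
      obtain ⟨b, hb⟩ := (d.conn i).nonempty
      apply hkinj
      exact Subtype.ext (IsComp.eq_of_mem (k (κ i)).2 (k a).2 (hκ i hb) (ha hb))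
    have hI : ∀ a, d.I (k a).1 = Finset.univ.filter fun i => κ i = a := by
      intro a
      ext i
      rw [d.mem_I, Finset.mem_filter]
      constructor
      · intro h
        exact ⟨Finset.mem_univ _, huniq i a h⟩
      · rintro ⟨-, rfl⟩
        exact hκ i
    have hm : ∀ i a, κ i = a → mlt D (IsComp.nonempty (k a).2).some = d.m i := by
      rintro i a rfl
      obtain ⟨b, hb⟩ := (d.conn i).nonempty
      rw [← d.mlt_eq hb.1.1 (Or.inl hb.2) hb.1.2]
      exact mlt_const (k (κ i)).2 (IsComp.nonempty (k (κ i)).2).some_mem (hκ i hb)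
    rw [← Finset.prod_fiberwise (s := Finset.univ) (g := κ) (f := fun i => d.q i z ^ d.m i)]
    refine Finset.prod_congr rfl fun a _ => ?_
    rw [hC (k a) x, ← hd, Dat.fc, hI a, ← Finset.prod_pow]
    refine Finset.prod_congr rfl fun i hi => ?_
    rw [Finset.mem_filter] at hi
    rw [hm i a hi.2]
  · have hab' : (k a).1 ≠ (k b).1 := fun h => hab (hkinj (Subtype.ext h))
    have hdisj : ∀ y, y ∈ (k a).1 → y ∉ (k b).1 := fun y h1 h2 =>
      hab' (IsComp.eq_of_mem (k a).2 (k b).2 h1 h2)
    constructor
    · intro h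
      apply hab'
      rw [← supp_inter_Rg (k a).2 (hC (k a)), ← supp_inter_Rg (k b).2 (hC (k b))]
      show (C (k a)).supp ∩ Rg D = (C (k b)).supp ∩ Rg D
      rw [show (C (k a)).supp = (C (k b)).supp from h]
    · refine (finite_supp_diff_Rg D).subset ?_
      rintro y ⟨h1, h2⟩
      refine ⟨?_, fun hR => ?_⟩
      · have h4 : (C (k a)).supp ⊆ D.supp := by
          rw [supp_eq_closure (k a).2 (hC (k a))]
          exact closure_minimal ((IsComp.subset (k a).2).trans (Rg_subset_supp D))
            (H815.isClosed_supp D)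
        exact h4 h1
      · have h3 : y ∈ (k a).1 := by
          rw [← supp_inter_Rg (k a).2 (hC (k a))]
          exact ⟨h1, hR⟩
        have h4 : y ∈ (k b).1 := by
          rw [← supp_inter_Rg (k b).2 (hC (k b))]
          exact ⟨h2, hR⟩
        exact hdisj y h3 h4
  · show IsComp D ((C (k a)).supp ∩ Rg D) ∧ (C (k a)).supp = closure ((C (k a)).supp ∩ Rg D)
    rw [supp_inter_Rg (k a).2 (hC (k a))]
    exact ⟨(k a).2, supp_eq_closure (k a).2 (hC (k a))⟩

end Vale.Agent.P267.H823
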