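import Vale.Agent.P267.H823.Dat

/-!
# P267, D3 (helper823): reduced irreducible components of an effective divisor
-/

open Filter Topology
open scoped Manifold ContDiff
open Vale.Agent.P272.K
open Vale.Agent.P267.H815 (UnitN Assoc Sing)

set_option linter.unusedSectionVars false

namespace Vale.Agent.P267.H823

variable {X : Type*} [TopologicalSpace X] [ChartedSpace (Cm 2) X] [IsManifold 𝓘(ℂ, Cm 2) ω X]

/-- connected components of the regular part -/
def IsComp (D : EffDiv X) (c : Set X) : Prop :=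
  ∃ y ∈ Rg D, c = connectedComponentIn (Rg D) y

section

variable {D : EffDiv X} {c : Set X}

theorem IsComp.subset (hc : IsComp D c) : c ⊆ Rg D := by
  obtain ⟨y, hy, rfl⟩ := hc
  exact connectedComponentIn_subset _ _

theorem IsComp.isPreconnected (hc : IsComp D c) : IsPreconnected c := by
  obtain ⟨y, hy, rfl⟩ := hc
  exact isPreconnected_connectedComponentIn

theorem IsComp.nonempty (hc : IsComp D c) : c.Nonempty := by
  obtain ⟨y, hy, rfl⟩ := hc
  exact ⟨y, mem_connectedComponentIn hy⟩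

/-- a preconnected subset of the regular part which meets a component is contained in it -/
theorem IsComp.subset_of_mem (hc : IsComp D c) {S : Set X} (hS : IsPreconnected S)
    (hSR : S ⊆ Rg D) {y : X} (hyS : y ∈ S) (hyc : y ∈ c) : S ⊆ c := by
  obtain ⟨y0, hy0, rfl⟩ := hc
  rw [connectedComponentIn_eq hyc]
  exact hS.subset_connectedComponentIn hyS hSR

theorem IsComp.eq_of_mem {c' : Set X} (hc : IsComp D c) (hc' : IsComp D c') {y : X} (hy : y ∈ c)
    (hy' : y ∈ c') : c = c' := by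
  obtain ⟨y0, hy0, rfl⟩ := hc
  obtain ⟨y1, hy1, rfl⟩ := hc'
  rw [connectedComponentIn_eq hy, connectedComponentIn_eq hy']

open Classical in
/-- branches contained in `c` -/
noncomputable def Dat.I {x : X} (d : Dat D x) (c : Set X) : Finset d.ι :=
  Finset.univ.filter fun i => d.B i ⊆ c

theorem Dat.mem_I {x : X} (d : Dat D x) (c : Set X) {i : d.ι} : i ∈ d.I c ↔ d.B i ⊆ c := by
  simp [Dat.I]

theorem Dat.mem_I_iff {x : X} (d : Dat D x) (hc : IsComp D c) {y : X} (hy : y ∈ d.O)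
    (hor : y ≠ x ∨ x ∈ Rg D) {i : d.ι} (hi : d.q i y = 0) : i ∈ d.I c ↔ y ∈ c := by
  rw [d.mem_I]
  have hS := d.insert_isPreconnected hy hi
  have hSR : insert y (d.B i) ⊆ Rg D := Set.insert_subset (d.mem_Rg hy hor hi) (d.B_subset i)
  constructor
  · intro h
    obtain ⟨b, hb⟩ := (d.conn i).nonempty
    exact hc.subset_of_mem hS hSR (Set.mem_insert_of_mem _ hb) (h hb) (Set.mem_insert _ _)
  · intro h
    exact (Set.subset_insert _ _).trans (hc.subset_of_mem hS hSR (Set.mem_insert _ _) h)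

/-- the local equation of the component `c` -/
noncomputable def Dat.fc {x : X} (d : Dat D x) (c : Set X) (y : X) : ℂ := ∏ i ∈ d.I c, d.q i y

theorem Dat.holN_fc {x : X} (d : Dat D x) (c : Set X) {y : X} (hy : y ∈ d.O) :
    HolN (Cm 2) (d.fc c) y := HolN.prod _ fun i _ => d.hol y hy i

theorem Dat.unitN_fc {x : X} (d : Dat D x) (c : Set X) {y : X} (hy : y ∈ d.O)
    (h : ∀ i ∈ d.I c, d.q i y ≠ 0) : UnitN (d.fc c) y :=
  ⟨d.holN_fc c hy, Finset.prod_ne_zero_iff.2 h⟩

theorem Dat.unitN_fc_of_not_mem {x : X} (d : Dat D x) (hc : IsComp D c) {y : X} (hy : y ∈ d.O)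
    (hor : y ≠ x ∨ x ∈ Rg D) (hyc : y ∉ c) : UnitN (d.fc c) y := by
  refine d.unitN_fc c hy fun i hi hi0 => hyc ?_
  exact (d.mem_I_iff hc hy hor hi0).1 hi

theorem Dat.unitN_fc_of_not_supp {x : X} (d : Dat D x) (c : Set X) {y : X} (hy : y ∈ d.O)
    (hys : y ∉ D.supp) : UnitN (d.fc c) y := by
  refine d.unitN_fc c hy fun i _ hi0 => hys ?_
  rw [d.supp_iff hy]
  exact ⟨i, hi0⟩

theorem Dat.assoc_fc {x : X} (d : Dat D x) (hc : IsComp D c) {y : X} (hy : y ∈ d.O)
    (hor : y ≠ x ∨ x ∈ Rg D) (hyc : y ∈ c) :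
    ∃ i ∈ d.I c, d.q i y = 0 ∧ Assoc (d.fc c) (d.q i) y := by
  classical
  obtain ⟨i, hi⟩ := (d.supp_iff hy).1 (Rg_subset_supp D (hc.subset hyc))
  have hiI := (d.mem_I_iff hc hy hor hi).2 hyc
  refine ⟨i, hiI, hi, fun z => ∏ j ∈ (d.I c).erase i, d.q j z, ⟨HolN.prod _ fun j _ =>
    d.hol y hy j, Finset.prod_ne_zero_iff.2 fun j hj =>
      (d.reg y hy hor i hi).2 j (Finset.ne_of_mem_erase hj)⟩, Filter.Eventually.of_forall fun z => ?_⟩
  rw [Dat.fc, ← Finset.mul_prod_erase _ (fun j => d.q j z) hiI]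
  ring

/-- multiplicity at a regular point -/
theorem exists_mult (D : EffDiv X) : ∃ μ : X → ℕ, ∀ y l m v, RegAt (Cm 2) (D.f y) y l m v →
    m = μ y := by
  classical
  refine ⟨fun y => if h : y ∈ Rg D then h.choose_spec.choose else 0, fun y l m v H => ?_⟩
  have h : y ∈ Rg D := ⟨l, m, v, H⟩
  show m = if h : y ∈ Rg D then h.choose_spec.choose else 0
  rw [dif_pos h]
  obtain ⟨v', H'⟩ := h.choose_spec.choose_spec
  exact (H.unique H').1

/-- multiplicity at a regular point -/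
noncomputable def mlt (D : EffDiv X) : X → ℕ := (exists_mult D).choose

theorem mlt_eq {y : X} {l : X → ℂ} {m : ℕ} {v : X → ℂ} (H : RegAt (Cm 2) (D.f y) y l m v) :
    mlt D y = m := ((exists_mult D).choose_spec y l m v H).symm

theorem Dat.mlt_eq {x : X} (d : Dat D x) {y : X} (hy : y ∈ d.O) (hor : y ≠ x ∨ x ∈ Rg D)
    {i : d.ι} (hi : d.q i y = 0) : mlt D y = d.m i := by
  obtain ⟨v, H⟩ := d.regAt hy hor hi
  exact H823.mlt_eq H

theorem mlt_pos {y : X} (hy : y ∈ Rg D) : 0 < mlt D y := by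
  obtain ⟨l, m, v, H⟩ := hy
  rw [mlt_eq H]
  exact H.mpos

theorem mlt_continuousOn : ContinuousOn (mlt D) (Rg D) := by
  intro y hy
  have d := dat D y
  refine (tendsto_pure.2 ?_).mono_right (pure_le_nhds _)
  rw [eventually_nhdsWithin_iff]
  filter_upwards [d.isOpen.mem_nhds d.mem] with z hz hzR
  obtain ⟨i, hi⟩ := (d.supp_iff hz).1 (Rg_subset_supp D hzR)
  rw [d.mlt_eq hz (Or.inr hy) hi, d.mlt_eq d.mem (Or.inr hy) (d.zero i)]

theorem mlt_const (hc : IsComp D c) {y z : X} (hy : y ∈ c) (hz : z ∈ c) : mlt D y = mlt D z :=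
  hc.isPreconnected.constant (mlt_continuousOn.mono hc.subset) hy hz

/-- the divisor of a component -/
theorem exists_comp (D : EffDiv X) (c : Set X) (hc : IsComp D c) :
    ∃ C : EffDiv X, ∀ x, C.f x = (dat D x).fc c := by
  obtain ⟨C, hC⟩ := H815.exists_effDiv (fun x => (dat D x).fc c)
    (fun x => (dat D x).holN_fc c (dat D x).mem) (fun x => by
      have d := dat D x
      have h1 := (D.ne x x (D.mem x)).and_eventually ((dat D x).isOpen.mem_nhds (dat D x).mem)
      refine h1.mono ?_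
      rintro y ⟨hy, hyO⟩
      refine ((dat D x).unitN_fc_of_not_supp c hyO ?_).2
      rw [H815.mem_supp_iff D ((dat D x).sub hyO)]
      exact hy) (fun x => by
      filter_upwards [(dat D x).isOpen.mem_nhds (dat D x).mem] with y hy
      by_cases hyx : y = x
      · subst hyx
        exact Assoc.refl _ _
      by_cases hyc : y ∈ c
      · have hyR := hc.subset hyc
        obtain ⟨i, -, hi, ha⟩ := (dat D x).assoc_fc hc hy (Or.inl hyx) hyc
        obtain ⟨j, -, hj, ha'⟩ := (dat D y).assoc_fc hc (dat D y).mem (Or.inr hyR) hyc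
        obtain ⟨v, H⟩ := (dat D x).regAt hy (Or.inl hyx) hi
        obtain ⟨v', H'⟩ := (dat D y).regAt (dat D y).mem (Or.inr hyR) hj
        exact (ha.trans (H'.unique H).2).trans ha'.symm
      · have h1 := (dat D x).unitN_fc_of_not_mem hc hy (Or.inl hyx) hyc
        refine assoc_of_unitN h1 ?_
        by_cases hyR : y ∈ Rg D
        · exact (dat D y).unitN_fc_of_not_mem hc (dat D y).mem (Or.inr hyR) hyc
        · refine (dat D y).unitN_fc_of_not_supp c (dat D y).mem fun hys => hyR ?_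
          obtain ⟨i, hi⟩ := ((dat D x).supp_iff hy).1 hys
          exact (dat D x).mem_Rg hy (Or.inl hyx) hi)
  exact ⟨C, fun x => congrFun hC x⟩

end

section Props

variable {D : EffDiv X} {c : Set X} {C : EffDiv X}

/-- smooth locus -/
theorem mem_smooth_iff {y : X} : y ∈ C.supp \ Sing C ↔ C.f y y = 0 ∧ dM (Cm 2) (C.f y) y ≠ 0 := by
  constructor
  · rintro ⟨h1, h2⟩
    exact ⟨h1, fun h3 => h2 ⟨h1, h3⟩⟩
  · rintro ⟨h1, h2⟩
    exact ⟨h1, fun h3 => h2 h3.2⟩

theorem subset_smooth (hc : IsComp D c) (hC : ∀ x, C.f x = (dat D x).fc c) :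
    c ⊆ C.supp \ Sing C := by
  intro y hyc
  have hyR := hc.subset hyc
  rw [mem_smooth_iff]
  obtain ⟨i, -, hi, ha⟩ := (dat D y).assoc_fc hc (dat D y).mem (Or.inr hyR) hyc
  rw [hC y]
  have h1 := ((dat D y).reg y (dat D y).mem (Or.inr hyR) i hi).1
  refine ⟨ha.zero_iff.2 hi, ?_⟩
  exact (ha.differential ((dat D y).hol y (dat D y).mem i) hi).2 h1

theorem supp_subset_closure (hC : ∀ x, C.f x = (dat D x).fc c) :
    C.supp ⊆ closure c := by
  intro y hy
  have h1 : C.f y y = 0 := hy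
  rw [hC y] at h1
  obtain ⟨i, hi, hi0⟩ := Finset.prod_eq_zero_iff.1 h1
  exact closure_mono ((Dat.mem_I _ _).1 hi) ((dat D y).acc i)

theorem supp_eq_closure (hc : IsComp D c) (hC : ∀ x, C.f x = (dat D x).fc c) :
    C.supp = closure c := by
  refine (supp_subset_closure hC).antisymm ?_
  exact closure_minimal ((subset_smooth hc hC).trans Set.sdiff_subset) (H815.isClosed_supp C)

theorem supp_inter_Rg (hc : IsComp D c) (hC : ∀ x, C.f x = (dat D x).fc c) :
    C.supp ∩ Rg D = c := by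
  ext y
  constructor
  · rintro ⟨h1, h2⟩
    by_contra h3
    have h4 := (dat D y).unitN_fc_of_not_mem hc (dat D y).mem (Or.inr h2) h3
    rw [← hC y] at h4
    exact h4.2 h1
  · intro h
    exact ⟨(subset_smooth hc hC h).1, hc.subset h⟩

theorem isConnected_smooth (hc : IsComp D c) (hC : ∀ x, C.f x = (dat D x).fc c) :
    IsConnected (C.supp \ Sing C) := by
  have h1 := subset_smooth hc hC
  refine ⟨hc.nonempty.mono h1, ?_⟩
  refine hc.isPreconnected.subset_closure h1 ?_
  exact Set.sdiff_subset.trans (supp_subset_closure hC)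

end Props

section Compact

variable [CompactSpace X] (D : EffDiv X)

theorem exists_finite_cover : ∃ t : Finset X, ∀ y : X, ∃ x ∈ t, y ∈ (dat D x).O := by
  obtain ⟨t, ht⟩ := isCompact_univ.elim_finite_subcover (fun x : X => (dat D x).O)
    (fun x => (dat D x).isOpen) (fun y _ => Set.mem_iUnion.2 ⟨y, (dat D y).mem⟩)
  refine ⟨t, fun y => ?_⟩
  obtain ⟨x, hx, hy⟩ := Set.mem_iUnion₂.1 (ht (Set.mem_univ y))
  exact ⟨x, hx, hy⟩

theorem finite_supp_diff_Rg : (D.supp \ Rg D).Finite := by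
  obtain ⟨t, ht⟩ := exists_finite_cover D
  refine t.finite_toSet.subset ?_
  rintro y ⟨hy, hyR⟩
  obtain ⟨x, hx, hyO⟩ := ht y
  by_cases hyx : y = x
  · subst hyx
    exact hx
  · obtain ⟨i, hi⟩ := ((dat D x).supp_iff hyO).1 hy
    exact absurd ((dat D x).mem_Rg hyO (Or.inl hyx) hi) hyR

theorem finite_isComp : {c : Set X | IsComp D c}.Finite := by
  classical
  obtain ⟨t, ht⟩ := exists_finite_cover D
  have h1 : (⋃ x ∈ t, Set.range fun i : (dat D x).ι =>
      connectedComponentIn (Rg D) ((dat D x).conn i).nonempty.some).Finite := by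
    refine t.finite_toSet.biUnion fun x _ => ?_
    exact Set.finite_range _
  refine h1.subset ?_
  intro c hc
  obtain ⟨y, hy⟩ := IsComp.nonempty hc
  have hyR := IsComp.subset hc hy
  obtain ⟨x, hx, hyO⟩ := ht y
  obtain ⟨i, hi⟩ := ((dat D x).supp_iff hyO).1 (Rg_subset_supp D hyR)
  have hor : y ≠ x ∨ x ∈ Rg D := by
    by_cases hyx : y = x
    · right
      rw [← hyx]
      exact hyR
    · exact Or.inl hyx
  have hB : (dat D x).B i ⊆ c := (Dat.mem_I _ _).1 (((dat D x).mem_I_iff hc hyO hor hi).2 hy)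
  refine Set.mem_iUnion₂.2 ⟨x, hx, ⟨i, ?_⟩⟩
  have h2 := ((dat D x).conn i).nonempty.some_mem
  obtain ⟨y0, hy0, rfl⟩ := hc
  exact (connectedComponentIn_eq (hB h2)).symm

end Compact

end Vale.Agent.P267.H823
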