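import Vale.Agent.P267.H823.LFact
import Vale.Agent.P267.H815.Div
import Vale.Agent.P267.H62.Curves

/-!
# P267, D3 (helper823): local data of an effective divisor
-/

open Filter Topology
open scoped Manifold ContDiff
open Vale.Agent.P272.K
open Vale.Agent.P267.H815 (UnitN Assoc Sing)

set_option linter.unusedSectionVars false

namespace Vale.Agent.P267.H823

theorem finrank_Cm2 : Module.finrank ℂ (Cm 2) = 2 := by simp

variable {X : Type*} [TopologicalSpace X] [ChartedSpace (Cm 2) X] [IsManifold 𝓘(ℂ, Cm 2) ω X]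

theorem assoc_of_unitN {f g : X → ℂ} {x : X} (hf : UnitN f x) (hg : UnitN g x) : Assoc f g x := by
  refine ⟨fun z => f z / g z, hf.div hg, ?_⟩
  filter_upwards [hg.ne] with z hz
  rw [div_mul_cancel₀ _ hz]

/-- two normal forms at a regular point -/
theorem RegAt.unique {f : X → ℂ} {y : X} {l l' : X → ℂ} {m m' : ℕ} {v v' : X → ℂ}
    (H : RegAt (Cm 2) f y l m v) (H' : RegAt (Cm 2) f y l' m' v') : m = m' ∧ Assoc l' l y := by
  have I1 : IsManifold 𝓘(ℂ, Cm 2) 1 X := IsManifold.of_le (n := ω) le_top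
  have hv := H.holv.continuousAt.eventually_ne H.ne
  have hv' := H'.holv.continuousAt.eventually_ne H'.ne
  have hz : ∀ᶠ x in 𝓝 y, l x = 0 → l' x = 0 := by
    filter_upwards [hv, hv', H.eq, H'.eq] with x h1 h2 h3 h4 h5
    rw [h5, zero_pow H.mpos.ne', mul_zero] at h3
    rw [h3] at h4
    rcases mul_eq_zero.1 h4.symm with h6 | h6
    · exact absurd h6 h2
    · exact (pow_eq_zero_iff H'.mpos.ne').1 h6
  obtain ⟨w, hw, hlw⟩ := H62.exists_div (E := Cm 2) finrank_Cm2 (l := l) (s := l') (p := y)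
    ⟨H.hol, H.zero, H.dne⟩ H'.hol hz
  have hw' : HolN (Cm 2) w y := hw
  have hlw' : ∀ᶠ x in 𝓝 y, l' x = w x * l x := by
    filter_upwards [hlw] with x hx
    rw [hx, mul_comm]
  have hwy : w y ≠ 0 := by
    have h1 := H'.dne
    rw [dM_congr hlw', dM_mul_ne_zero_iff H.hol.mdiff hw'.mdiff H.zero] at h1
    exact h1.1
  refine ⟨?_, ⟨w, ⟨hw', hwy⟩, hlw'⟩⟩
  have hfr : ∃ᶠ x in 𝓝 y, l x ≠ 0 := frequently_ne_of_mfderiv H.dne
  rcases lt_trichotomy m m' with h | h | h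
  · exfalso
    have h1 := H815.eq_of_mul_eq (u := v) (v := fun x => v' x * w x ^ m' * l x ^ (m' - m))
      (f := fun x => l x ^ m) (x := y) H.holv.continuousAt
      (((H'.holv.mul (hw'.pow m')).mul (H.hol.pow (m' - m))).continuousAt)
      (hfr.mono fun x hx => pow_ne_zero _ hx) (by
        filter_upwards [H.eq, H'.eq, hlw'] with x h2 h3 h4
        rw [← h2, h3, h4, mul_pow]
        have h5 : l x ^ m' = l x ^ (m' - m) * l x ^ m := by
          rw [← pow_add, Nat.sub_add_cancel h.le]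
        rw [h5]
        ring)
    rw [H.zero, zero_pow (by omega), mul_zero] at h1
    exact H.ne h1
  · exact h
  · exfalso
    have h1 := H815.eq_of_mul_eq (u := fun x => v' x * w x ^ m') (v := fun x => v x * l x ^ (m - m'))
      (f := fun x => l x ^ m') (x := y) ((H'.holv.mul (hw'.pow m')).continuousAt)
      ((H.holv.mul (H.hol.pow (m - m'))).continuousAt)
      (hfr.mono fun x hx => pow_ne_zero _ hx) (by
        filter_upwards [H.eq, H'.eq, hlw'] with x h2 h3 h4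
        have h5 : l x ^ m = l x ^ (m - m') * l x ^ m' := by
          rw [← pow_add, Nat.sub_add_cancel h.le]
        rw [h5] at h2
        rw [mul_assoc (v x), ← h2, h3, h4, mul_pow]
        ring)
    rw [H.zero, zero_pow (by omega), mul_zero] at h1
    exact mul_ne_zero H'.ne (pow_ne_zero _ hwy) h1

theorem RegAt.assoc {f g : X → ℂ} {y : X} {l : X → ℂ} {m : ℕ} {v : X → ℂ}
    (H : RegAt (Cm 2) f y l m v) (h : Assoc g f y) : ∃ v', RegAt (Cm 2) g y l m v' := by
  obtain ⟨u, hu, he⟩ := h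
  refine ⟨fun x => u x * v x, H.hol, H.zero, H.dne, H.mpos, HolN.mul hu.1 H.holv,
    mul_ne_zero hu.2 H.ne, ?_⟩
  filter_upwards [he, H.eq] with x h1 h2
  rw [h1, h2, mul_assoc]

/-- regular points of a divisor: it is a multiple of a smooth curve there -/
def Rg (D : EffDiv X) : Set X := {x | ∃ l m v, RegAt (Cm 2) (D.f x) x l m v}

theorem Rg_subset_supp (D : EffDiv X) : Rg D ⊆ D.supp := by
  rintro x ⟨l, m, v, H⟩
  show D.f x x = 0
  rw [H.eq.self_of_nhds, H.zero, zero_pow H.mpos.ne', mul_zero]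

/-- The local data at a point. -/
structure Dat (D : EffDiv X) (x : X) where
  ι : Type
  fin : Fintype ι
  q : ι → X → ℂ
  m : ι → ℕ
  u : X → ℂ
  O : Set X
  isOpen : IsOpen O
  mem : x ∈ O
  sub : O ⊆ D.U x
  hol : ∀ y ∈ O, ∀ i, HolN (Cm 2) (q i) y
  holu : ∀ y ∈ O, HolN (Cm 2) u y ∧ u y ≠ 0
  eq : ∀ y ∈ O, D.f x y = u y * ∏ i, q i y ^ m i
  mpos : ∀ i, 0 < m i
  zero : ∀ i, q i x = 0
  reg : ∀ y ∈ O, (y ≠ x ∨ x ∈ Rg D) → ∀ i, q i y = 0 →
    dM (Cm 2) (q i) y ≠ 0 ∧ ∀ j, j ≠ i → q j y ≠ 0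
  conn : ∀ i, IsConnected ({y ∈ O | q i y = 0} \ {x})
  acc : ∀ i, x ∈ closure ({y ∈ O | q i y = 0} \ {x})

theorem exists_dat_of_locFact (D : EffDiv X) (x : X) {ι : Type} [Fintype ι] {q : ι → X → ℂ}
    {m : ι → ℕ} {u : X → ℂ} (L : LocFact (Cm 2) (D.f x) x q m u)
    (hr : x ∈ Rg D → ∀ i, dM (Cm 2) (q i) x ≠ 0 ∧ ∀ j, j = i) : Nonempty (Dat D x) := by
  have h1 : ∀ᶠ y in 𝓝 x, y ≠ x → ∀ i, q i y = 0 →
      dM (Cm 2) (q i) y ≠ 0 ∧ ∀ j, j ≠ i → q j y ≠ 0 := eventually_nhdsWithin_iff.1 L.reg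
  have h2 : ∀ᶠ y in 𝓝 x, ∀ i, HolN (Cm 2) (q i) y := Filter.eventually_all.2 fun i =>
    (L.hol i).eventually
  have h3 : ∀ᶠ y in 𝓝 x, HolN (Cm 2) u y ∧ u y ≠ 0 :=
    L.holu.eventually.and (L.holu.continuousAt.eventually_ne L.ne)
  have h4 : ∀ᶠ y in 𝓝 x, y ∈ D.U x := (D.isOpen x).mem_nhds (D.mem x)
  obtain ⟨V, hVn, hVo, hVW, hVc⟩ := L.conn _ ((h1.and h2).and (h3.and (h4.and L.eq)))
  refine ⟨⟨ι, ‹_›, q, m, u, V, hVo, mem_of_mem_nhds hVn, fun y hy => (hVW hy).2.2.1,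
    fun y hy => (hVW hy).1.2, fun y hy => (hVW hy).2.1, fun y hy => (hVW hy).2.2.2, L.mpos, L.zero,
    ?_, hVc, ?_⟩⟩
  · intro y hy hor i hi
    by_cases hyx : y = x
    · subst hyx
      have h5 := hr (hor.resolve_left fun h => h rfl) i
      exact ⟨h5.1, fun j hj => absurd (h5.2 j) hj⟩
    · exact (hVW hy).1.1 hyx i hi
  · intro i
    rw [mem_closure_iff_nhds]
    intro W hW
    obtain ⟨V', hV'n, -, hV'W, hV'c⟩ := L.conn _ (inter_mem hW hVn)
    obtain ⟨z, ⟨hz1, hz2⟩, hz3⟩ := (hV'c i).nonempty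
    exact ⟨z, (hV'W hz1).1, ⟨(hV'W hz1).2, hz2⟩, hz3⟩

theorem exists_dat (D : EffDiv X) (x : X) : Nonempty (Dat D x) := by
  have hD : HolN (Cm 2) (D.f x) x := holN_of_open (D.isOpen x) (D.holo x) (D.mem x)
  by_cases h0 : D.f x x = 0
  · by_cases hr : x ∈ Rg D
    · obtain ⟨l, m, v, H⟩ := hr
      obtain ⟨ι, Fι, q, m', u, -, L, h2⟩ := H.exists_locFact' finrank_Cm2
      exact exists_dat_of_locFact D x L fun _ => h2
    · obtain ⟨ι, Fι, q, m', u, -, L⟩ := exists_locFact finrank_Cm2 hD h0 (D.ne x x (D.mem x))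
      exact exists_dat_of_locFact D x L fun h => absurd h hr
  · have L : LocFact (Cm 2) (D.f x) x (ι := Empty) (fun i => i.elim) (fun i => i.elim) (D.f x) := by
      refine ⟨fun i => i.elim, fun i => i.elim, fun i => i.elim, hD, h0, ?_, ?_, fun W hW => ?_⟩
      · refine Filter.Eventually.of_forall fun y => ?_
        rw [Finset.univ_eq_empty, Finset.prod_empty, mul_one]
      · exact Filter.Eventually.of_forall fun y i => i.elim
      · obtain ⟨V, hVW, hVo, hxV⟩ := mem_nhds_iff.1 hW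
        exact ⟨V, hVo.mem_nhds hxV, hVo, hVW, fun i => i.elim⟩
    exact exists_dat_of_locFact D x L fun _ i => i.elim

/-- chosen local data -/
noncomputable def dat (D : EffDiv X) (x : X) : Dat D x := Classical.choice (exists_dat D x)

noncomputable instance (D : EffDiv X) (x : X) (d : Dat D x) : Fintype d.ι := d.fin

namespace Dat

variable {D : EffDiv X} {x : X} (d : Dat D x)

/-- punctured local branch -/
def B (i : d.ι) : Set X := {y ∈ d.O | d.q i y = 0} \ {x}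

theorem supp_iff {y : X} (hy : y ∈ d.O) : y ∈ D.supp ↔ ∃ i, d.q i y = 0 := by
  rw [H815.mem_supp_iff D (d.sub hy), d.eq y hy, mul_eq_zero]
  constructor
  · rintro (h | h)
    · exact absurd h (d.holu y hy).2
    · obtain ⟨i, -, hi⟩ := Finset.prod_eq_zero_iff.1 h
      exact ⟨i, (pow_eq_zero_iff (d.mpos i).ne').1 hi⟩
  · rintro ⟨i, hi⟩
    right
    refine Finset.prod_eq_zero (Finset.mem_univ i) ?_
    rw [hi, zero_pow (d.mpos i).ne']

theorem regAt {y : X} (hy : y ∈ d.O) (hor : y ≠ x ∨ x ∈ Rg D) {i : d.ι} (hi : d.q i y = 0) :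
    ∃ v, RegAt (Cm 2) (D.f y) y (d.q i) (d.m i) v := by
  classical
  have h1 := d.reg y hy hor i hi
  have H : RegAt (Cm 2) (D.f x) y (d.q i) (d.m i)
      (fun z => d.u z * ∏ j ∈ Finset.univ.erase i, d.q j z ^ d.m j) := by
    refine ⟨d.hol y hy i, hi, h1.1, d.mpos i, (d.holu y hy).1.mul (HolN.prod _ fun j _ =>
      (d.hol y hy j).pow _), ?_, ?_⟩
    · refine mul_ne_zero (d.holu y hy).2 (Finset.prod_ne_zero_iff.2 fun j hj => ?_)
      exact pow_ne_zero _ (h1.2 j (Finset.ne_of_mem_erase hj))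
    · filter_upwards [d.isOpen.mem_nhds hy] with z hz
      rw [d.eq z hz, ← Finset.mul_prod_erase Finset.univ (fun j => d.q j z ^ d.m j)
        (Finset.mem_univ i)]
      ring
  exact H.assoc (H815.assoc_f D (D.mem y) (d.sub hy))

theorem mem_Rg {y : X} (hy : y ∈ d.O) (hor : y ≠ x ∨ x ∈ Rg D) {i : d.ι} (hi : d.q i y = 0) :
    y ∈ Rg D := by
  obtain ⟨v, H⟩ := d.regAt hy hor hi
  exact ⟨_, _, _, H⟩

theorem B_subset (i : d.ι) : d.B i ⊆ Rg D := fun _ hy => d.mem_Rg hy.1.1 (Or.inl hy.2) hy.1.2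

/-- the branch through a regular point -/
theorem insert_isPreconnected {y : X} (hy : y ∈ d.O) {i : d.ι} (hi : d.q i y = 0) :
    IsPreconnected (insert y (d.B i)) := by
  refine (d.conn i).isPreconnected.subset_closure (Set.subset_insert _ _) ?_
  refine Set.insert_subset ?_ subset_closure
  by_cases hyx : y = x
  · subst hyx
    exact d.acc i
  · exact subset_closure ⟨⟨hy, hi⟩, hyx⟩

end Dat

end Vale.Agent.P267.H823
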