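import Mathlib

/-!
# P267, package CURV-C1 (helper823): Hensel's lemma for polynomials with holomorphic coefficients
-/

open Filter Topology Polynomial

namespace Vale.Agent.P267.H823

variable {Y : Type*} [NormedAddCommGroup Y] [NormedSpace ℂ Y]

/-- The polynomial with given coefficients in degrees `< d`, as a linear map. -/
noncomputable def hlp (d : ℕ) : (Fin d → ℂ) →ₗ[ℂ] ℂ[X] where
  toFun a := ∑ i : Fin d, C (a i) * X ^ (i : ℕ)
  map_add' a b := by
    rw [← Finset.sum_add_distrib]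
    refine Finset.sum_congr rfl fun i _ => ?_
    rw [Pi.add_apply, C_add, add_mul]
  map_smul' c a := by
    rw [RingHom.id_apply, Finset.smul_sum]
    refine Finset.sum_congr rfl fun i _ => ?_
    rw [Pi.smul_apply, smul_eq_mul, C_mul, smul_eq_C_mul, mul_assoc]

theorem hlp_coeff (d : ℕ) (a : Fin d → ℂ) (k : ℕ) :
    (hlp d a).coeff k = if h : k < d then a ⟨k, h⟩ else 0 := by
  change (∑ i : Fin d, C (a i) * X ^ (i : ℕ)).coeff k = _
  rw [finsetSum_coeff]
  simp only [coeff_C_mul, coeff_X_pow]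
  split_ifs with h
  · rw [Finset.sum_eq_single (⟨k, h⟩ : Fin d)]
    · simp
    · intro i _ hi
      rw [if_neg, mul_zero]
      intro hk
      exact hi (Fin.ext hk.symm)
    · intro hn
      exact absurd (Finset.mem_univ _) hn
  · refine Finset.sum_eq_zero fun i _ => ?_
    rw [if_neg, mul_zero]
    intro hk
    exact h (hk ▸ i.2)

theorem hlp_degree (d : ℕ) (a : Fin d → ℂ) : (hlp d a).degree < d := by
  rw [degree_lt_iff_coeff_zero]
  intro m hm
  rw [hlp_coeff, dif_neg (not_lt.2 hm)]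

theorem hlp_inj {d : ℕ} {a : Fin d → ℂ} (h : hlp d a = 0) : a = 0 := by
  funext i
  have := hlp_coeff d a i
  rw [h, coeff_zero, dif_pos i.2] at this
  exact this.symm

/-- The monic polynomial with given lower coefficients. -/
noncomputable def hmp (d : ℕ) (a : Fin d → ℂ) : ℂ[X] := X ^ d + hlp d a

theorem hmp_monic (d : ℕ) (a : Fin d → ℂ) : (hmp d a).Monic :=
  monic_X_pow_add (hlp_degree d a)

theorem hmp_natDegree (d : ℕ) (a : Fin d → ℂ) : (hmp d a).natDegree = d := by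
  have h : (hmp d a).degree = d := by
    unfold hmp
    rw [degree_add_eq_left_of_degree_lt, degree_X_pow]
    rw [degree_X_pow]
    exact hlp_degree d a
  exact natDegree_eq_of_degree_eq_some h

theorem hmp_eq {d : ℕ} {Q : ℂ[X]} (hQ : Q.Monic) (hd : Q.natDegree = d) :
    hmp d (fun i => Q.coeff i) = Q := by
  ext k
  unfold hmp
  rw [coeff_add, hlp_coeff, coeff_X_pow]
  rcases lt_trichotomy k d with h | h | h
  · rw [if_neg h.ne, dif_pos h, zero_add]
  · subst h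
    rw [if_pos rfl, dif_neg (lt_irrefl _), add_zero, ← hd]
    exact hQ.coeff_natDegree.symm
  · rw [if_neg h.ne', dif_neg (not_lt.2 h.le), add_zero]
    exact (coeff_eq_zero_of_natDegree_lt (hd ▸ h)).symm

/-- The multiplication map on coefficient vectors. -/
noncomputable def hmu (d1 d2 : ℕ) (p : (Fin d1 → ℂ) × (Fin d2 → ℂ)) : Fin (d1 + d2) → ℂ :=
  fun i => (hmp d1 p.1 * hmp d2 p.2).coeff i

/-- Its derivative. -/
noncomputable def hD {d1 d2 : ℕ} (Q1 Q2 : ℂ[X]) :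
    ((Fin d1 → ℂ) × (Fin d2 → ℂ)) →ₗ[ℂ] (Fin (d1 + d2) → ℂ) where
  toFun p := fun i => (hlp d1 p.1 * Q2 + Q1 * hlp d2 p.2).coeff i
  map_add' p q := by
    funext i
    simp only [Prod.fst_add, Prod.snd_add, map_add, add_mul, mul_add, coeff_add, Pi.add_apply]
    ring
  map_smul' c p := by
    funext i
    simp only [Prod.smul_fst, Prod.smul_snd, map_smul, smul_mul_assoc, mul_smul_comm, coeff_add,
      coeff_smul, smul_eq_mul, Pi.smul_apply, RingHom.id_apply, mul_add]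

theorem hD_injective {d1 d2 : ℕ} {Q1 Q2 : ℂ[X]} (h1 : Q1.Monic) (h2 : Q2.Monic)
    (hd1 : Q1.natDegree = d1) (hd2 : Q2.natDegree = d2) (hco : IsCoprime Q1 Q2) :
    Function.Injective (hD Q1 Q2 : ((Fin d1 → ℂ) × (Fin d2 → ℂ)) →ₗ[ℂ] _) := by
  rw [← LinearMap.ker_eq_bot, LinearMap.ker_eq_bot']
  rintro ⟨a, b⟩ h
  have hdeg1 : Q1.degree = d1 := by rw [degree_eq_natDegree h1.ne_zero, hd1]
  have hdeg2 : Q2.degree = d2 := by rw [degree_eq_natDegree h2.ne_zero, hd2]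
  have hz : hlp d1 a * Q2 + Q1 * hlp d2 b = 0 := by
    have hlt : (hlp d1 a * Q2 + Q1 * hlp d2 b).degree < ((d1 + d2 : ℕ) : WithBot ℕ) := by
      refine lt_of_le_of_lt (degree_add_le _ _) (max_lt ?_ ?_)
      · rw [degree_mul, hdeg2, Nat.cast_add]
        exact WithBot.add_lt_add_right (WithBot.coe_ne_bot) (hlp_degree d1 a)
      · rw [degree_mul, hdeg1, Nat.cast_add]
        exact WithBot.add_lt_add_left (WithBot.coe_ne_bot) (hlp_degree d2 b)
    ext k
    rw [coeff_zero]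
    by_cases hk : k < d1 + d2
    · exact congrFun h ⟨k, hk⟩
    · exact (degree_lt_iff_coeff_zero _ _).1 hlt k (not_lt.1 hk)
  have hdvd : Q1 ∣ hlp d1 a * Q2 := by
    refine ⟨-hlp d2 b, ?_⟩
    rw [mul_neg]
    exact eq_neg_of_add_eq_zero_left hz
  have ha : hlp d1 a = 0 := by
    refine eq_zero_of_dvd_of_degree_lt (hco.dvd_of_dvd_mul_right hdvd) ?_
    rw [hdeg1]
    exact hlp_degree d1 a
  have hb : hlp d2 b = 0 := by
    rw [ha, zero_mul, zero_add] at hz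
    exact (mul_eq_zero.1 hz).resolve_left h1.ne_zero
  exact Prod.ext (hlp_inj ha) (hlp_inj hb)

/-- coefficient of `hlp` as a continuous linear map. -/
noncomputable def hcf (d k : ℕ) : (Fin d → ℂ) →L[ℂ] ℂ :=
  LinearMap.toContinuousLinearMap ((lcoeff ℂ k).comp (hlp d))

theorem hcf_apply (d k : ℕ) (a : Fin d → ℂ) : hcf d k a = (hlp d a).coeff k := rfl

theorem hmp_coeff (d k : ℕ) (a : Fin d → ℂ) :
    (hmp d a).coeff k = (X ^ d : ℂ[X]).coeff k + hcf d k a := by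
  unfold hmp
  rw [coeff_add, hcf_apply]

theorem hmu_contDiff (d1 d2 : ℕ) : ContDiff ℂ ⊤ (hmu d1 d2) := by
  rw [contDiff_pi]
  intro i
  have : (fun p : (Fin d1 → ℂ) × (Fin d2 → ℂ) => hmu d1 d2 p i) = fun p =>
      ∑ x ∈ Finset.HasAntidiagonal.antidiagonal (i : ℕ), ((X ^ d1 : ℂ[X]).coeff x.1 + hcf d1 x.1 p.1) *
        ((X ^ d2 : ℂ[X]).coeff x.2 + hcf d2 x.2 p.2) := by
    funext p
    unfold hmu
    rw [coeff_mul]
    simp only [hmp_coeff]
  rw [this]
  refine ContDiff.sum fun x _ => ?_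
  exact (contDiff_const.add ((hcf d1 x.1).contDiff.comp contDiff_fst)).mul
    (contDiff_const.add ((hcf d2 x.2).contDiff.comp contDiff_snd))

theorem hmu_hasFDerivAt (d1 d2 : ℕ) (p : (Fin d1 → ℂ) × (Fin d2 → ℂ)) :
    HasFDerivAt (hmu d1 d2)
      (LinearMap.toContinuousLinearMap (hD (hmp d1 p.1) (hmp d2 p.2))) p := by
  rw [hasFDerivAt_pi']
  intro i
  have : (fun p : (Fin d1 → ℂ) × (Fin d2 → ℂ) => hmu d1 d2 p i) = fun p =>
      ∑ x ∈ Finset.HasAntidiagonal.antidiagonal (i : ℕ), ((X ^ d1 : ℂ[X]).coeff x.1 + hcf d1 x.1 p.1) *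
        ((X ^ d2 : ℂ[X]).coeff x.2 + hcf d2 x.2 p.2) := by
    funext p
    unfold hmu
    rw [coeff_mul]
    simp only [hmp_coeff]
  rw [this]
  have h : HasFDerivAt (fun p : (Fin d1 → ℂ) × (Fin d2 → ℂ) =>
      ∑ x ∈ Finset.HasAntidiagonal.antidiagonal (i : ℕ), ((X ^ d1 : ℂ[X]).coeff x.1 + hcf d1 x.1 p.1) *
        ((X ^ d2 : ℂ[X]).coeff x.2 + hcf d2 x.2 p.2))
      (∑ x ∈ Finset.HasAntidiagonal.antidiagonal (i : ℕ),
        (((X ^ d1 : ℂ[X]).coeff x.1 + hcf d1 x.1 p.1) •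
            (hcf d2 x.2).comp (ContinuousLinearMap.snd ℂ _ _) +
          ((X ^ d2 : ℂ[X]).coeff x.2 + hcf d2 x.2 p.2) •
            (hcf d1 x.1).comp (ContinuousLinearMap.fst ℂ _ _))) p := by
    refine HasFDerivAt.fun_sum fun x _ => ?_
    refine HasFDerivAt.mul ?_ ?_
    · exact ((hcf d1 x.1).hasFDerivAt.comp p hasFDerivAt_fst).const_add _
    · exact ((hcf d2 x.2).hasFDerivAt.comp p hasFDerivAt_snd).const_add _
  refine h.congr_fderiv (ContinuousLinearMap.ext fun q => ?_)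
  change _ = (hlp d1 q.1 * hmp d2 p.2 + hmp d1 p.1 * hlp d2 q.2).coeff i
  rw [coeff_add, coeff_mul, coeff_mul, ← Finset.sum_add_distrib]
  simp only [sum_apply, add_apply,
    smul_apply, ContinuousLinearMap.comp_apply,
    ContinuousLinearMap.coe_fst', ContinuousLinearMap.coe_snd', smul_eq_mul, hmp_coeff, hcf_apply]
  refine Finset.sum_congr rfl fun x _ => ?_
  ring

/-- Analytic factorization of polynomials with analytic coefficients (Hensel's lemma). -/
theorem hensel {P : Y → ℂ[X]} {y0 : Y} {d1 d2 : ℕ}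
    (hm : ∀ y, (P y).Monic ∧ (P y).natDegree = d1 + d2)
    (hP : ∀ i, AnalyticAt ℂ (fun y => (P y).coeff i) y0)
    {Q1 Q2 : ℂ[X]} (h1 : Q1.Monic) (h2 : Q2.Monic) (hd1 : Q1.natDegree = d1)
    (hd2 : Q2.natDegree = d2) (hco : IsCoprime Q1 Q2) (hfac : P y0 = Q1 * Q2) :
    ∃ R1 R2 : Y → ℂ[X], (∀ y, (R1 y).Monic ∧ (R1 y).natDegree = d1) ∧
      (∀ y, (R2 y).Monic ∧ (R2 y).natDegree = d2) ∧
      (∀ i, AnalyticAt ℂ (fun y => (R1 y).coeff i) y0) ∧
      (∀ i, AnalyticAt ℂ (fun y => (R2 y).coeff i) y0) ∧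
      R1 y0 = Q1 ∧ R2 y0 = Q2 ∧ ∀ᶠ y in 𝓝 y0, P y = R1 y * R2 y := by
  set p0 : (Fin d1 → ℂ) × (Fin d2 → ℂ) := (fun i => Q1.coeff i, fun i => Q2.coeff i) with hp0
  have hQ1 : hmp d1 p0.1 = Q1 := hmp_eq h1 hd1
  have hQ2 : hmp d2 p0.2 = Q2 := hmp_eq h2 hd2
  have hinj := hD_injective h1 h2 hd1 hd2 hco
  have hfr : Module.finrank ℂ ((Fin d1 → ℂ) × (Fin d2 → ℂ)) =
      Module.finrank ℂ (Fin (d1 + d2) → ℂ) := by
    simp
  set e : ((Fin d1 → ℂ) × (Fin d2 → ℂ)) ≃L[ℂ] (Fin (d1 + d2) → ℂ) :=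
    (LinearEquiv.ofInjectiveOfFinrankEq (hD Q1 Q2) hinj hfr).toContinuousLinearEquiv with he
  have hder : HasFDerivAt (hmu d1 d2) (e : _ →L[ℂ] _) p0 := by
    have := hmu_hasFDerivAt d1 d2 p0
    rw [hQ1, hQ2] at this
    exact this.congr_fderiv rfl
  have hcd : ContDiffAt ℂ ⊤ (hmu d1 d2) p0 := (hmu_contDiff d1 d2).contDiffAt
  have hne : (⊤ : WithTop ℕ∞) ≠ 0 := by simp
  set χ := hcd.localInverse hder hne with hχ
  have hχan : AnalyticAt ℂ χ (hmu d1 d2 p0) := (hcd.to_localInverse hder hne).analyticAt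
  have hχanR : AnalyticAt ℂ χ (hmu d1 d2 p0) := hχan
  have hχ0 : χ (hmu d1 d2 p0) = p0 := hcd.localInverse_apply_image hder hne
  have hstrict := hcd.hasStrictFDerivAt' hder hne
  have hright : ∀ᶠ c in 𝓝 (hmu d1 d2 p0), hmu d1 d2 (χ c) = c :=
    hstrict.eventually_right_inverse
  set c : Y → (Fin (d1 + d2) → ℂ) := fun y i => (P y).coeff i with hc
  have hcan : AnalyticAt ℂ c y0 := by
    rw [analyticAt_pi_iff]
    exact fun i => hP i
  have hc0 : c y0 = hmu d1 d2 p0 := by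
    funext i
    simp only [hc, hmu, hQ1, hQ2, hfac]
  have hcomp : AnalyticAt ℂ (fun y => χ (c y)) y0 := by
    rw [← hc0] at hχanR
    exact hχanR.comp hcan
  refine ⟨fun y => hmp d1 (χ (c y)).1, fun y => hmp d2 (χ (c y)).2,
    fun y => ⟨hmp_monic _ _, hmp_natDegree _ _⟩, fun y => ⟨hmp_monic _ _, hmp_natDegree _ _⟩,
    fun i => ?_, fun i => ?_, ?_, ?_, ?_⟩
  · simp only [hmp_coeff]
    refine analyticAt_const.add ?_
    have h3 : AnalyticAt ℂ (fun y => (χ (c y)).1) y0 := analyticAt_fst.fun_comp hcomp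
    exact ((((hcf d1 i).analyticAt _)).comp h3)
  · simp only [hmp_coeff]
    refine analyticAt_const.add ?_
    have h3 : AnalyticAt ℂ (fun y => (χ (c y)).2) y0 := analyticAt_snd.fun_comp hcomp
    exact ((((hcf d2 i).analyticAt _)).comp h3)
  · simp only [hc0, hχ0, hQ1]
  · simp only [hc0, hχ0, hQ2]
  · have h3 : Tendsto c (𝓝 y0) (𝓝 (hmu d1 d2 p0)) := by
      have := hcan.continuousAt.tendsto
      rwa [hc0] at this
    filter_upwards [h3.eventually hright] with y hy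
    have h4 : (hmp d1 (χ (c y)).1 * hmp d2 (χ (c y)).2).Monic :=
      (hmp_monic _ _).mul (hmp_monic _ _)
    have h5 : (hmp d1 (χ (c y)).1 * hmp d2 (χ (c y)).2).natDegree = d1 + d2 := by
      rw [(hmp_monic _ _).natDegree_mul (hmp_monic _ _), hmp_natDegree, hmp_natDegree]
    rw [← hmp_eq (hm y).1 (hm y).2, ← hmp_eq h4 h5]
    congr 1
    exact hy.symm

end Vale.Agent.P267.H823
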