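import Vale.Agent.P267.H823.PL6
import Vale.Agent.P267.H823.PL7

/-!
# P267, adjunction formula (helper823): pull-back of forms by holomorphic curves
-/

open scoped Manifold ContDiff ComplexConjugate Matrix Real
open MeasureTheory Set Filter Topology

set_option linter.unusedSectionVars false

noncomputable section

namespace Vale.Agent.P267.H823.PL

open Vale.Agent.P267.FL Vale.Agent.P267.H332 Vale.Agent.P267.H757

/-! ### chain rule for curves in `ℂ²` -/

section flat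

variable {u : C2 → ℂ} {c : ℂ → C2} {t : ℂ}

theorem fderiv_comp_curve (hu : DifferentiableAt ℝ u (c t)) (hc : DifferentiableAt ℂ c t) (v : ℂ) :
    fderiv ℝ (fun s => u (c s)) t v = ∑ i, ((v * deriv c t i) * dz i u (c t) +
      conj (v * deriv c t i) * dzb i u (c t)) := by
  have h1 : fderiv ℝ (fun s => u (c s)) t =
      (fderiv ℝ u (c t)).comp ((fderiv ℂ c t).restrictScalars ℝ) :=
    (hu.hasFDerivAt.comp t (hc.hasFDerivAt.restrictScalars ℝ)).fderiv
  rw [h1]
  simp only [ContinuousLinearMap.comp_apply, ContinuousLinearMap.coe_restrictScalars',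
    fderiv_eq_smul_deriv]
  rw [fderiv_eq_wirt]
  simp only [Pi.smul_apply, smul_eq_mul]

theorem D1_curve (hu : DifferentiableAt ℝ u (c t)) (hc : DifferentiableAt ℂ c t) :
    D1 (fun s => u (c s)) t = ∑ i, dz i u (c t) * deriv c t i := by
  have h1 : D1 (fun s => u (c s)) t = (1 / 2) * (fderiv ℝ (fun s => u (c s)) t 1 -
    Complex.I * fderiv ℝ (fun s => u (c s)) t Complex.I) := rfl
  rw [h1, fderiv_comp_curve hu hc, fderiv_comp_curve hu hc]
  simp only [Fin.sum_univ_two, map_mul, Complex.conj_I, one_mul]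
  linear_combination (-(1 / 2) * deriv c t 0 * dz 0 u (c t) +
    (1 / 2) * conj (deriv c t 0) * dzb 0 u (c t) - (1 / 2) * deriv c t 1 * dz 1 u (c t) +
    (1 / 2) * conj (deriv c t 1) * dzb 1 u (c t)) * Complex.I_mul_I

theorem Db_curve (hu : DifferentiableAt ℝ u (c t)) (hc : DifferentiableAt ℂ c t) :
    Db (fun s => u (c s)) t = ∑ i, dzb i u (c t) * conj (deriv c t i) := by
  have h1 : Db (fun s => u (c s)) t = (1 / 2) * (fderiv ℝ (fun s => u (c s)) t 1 +
    Complex.I * fderiv ℝ (fun s => u (c s)) t Complex.I) := rfl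
  rw [h1, fderiv_comp_curve hu hc, fderiv_comp_curve hu hc]
  simp only [Fin.sum_univ_two, map_mul, Complex.conj_I, one_mul]
  linear_combination ((1 / 2) * deriv c t 0 * dz 0 u (c t) -
    (1 / 2) * conj (deriv c t 0) * dzb 0 u (c t) + (1 / 2) * deriv c t 1 * dz 1 u (c t) -
    (1 / 2) * conj (deriv c t 1) * dzb 1 u (c t)) * Complex.I_mul_I

theorem D1_sum {ι : Type*} (S : Finset ι) {h : ι → ℂ → ℂ}
    (hh : ∀ i ∈ S, DifferentiableAt ℝ (h i) t) :
    D1 (fun s => ∑ i ∈ S, h i s) t = ∑ i ∈ S, D1 (h i) t := by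
  classical
  induction S using Finset.induction_on with
  | empty => simpa using D1_const 0
  | insert i S hi ih =>
    have h1 : DifferentiableAt ℝ (fun s => ∑ i ∈ S, h i s) t :=
      DifferentiableAt.fun_sum fun j hj => hh j (Finset.mem_insert_of_mem hj)
    simp only [Finset.sum_insert hi]
    rw [D1_add (hh i (Finset.mem_insert_self _ _)) h1,
      ih fun j hj => hh j (Finset.mem_insert_of_mem hj)]

theorem Db_sum {ι : Type*} (S : Finset ι) {h : ι → ℂ → ℂ}
    (hh : ∀ i ∈ S, DifferentiableAt ℝ (h i) t) :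
    Db (fun s => ∑ i ∈ S, h i s) t = ∑ i ∈ S, Db (h i) t := by
  classical
  induction S using Finset.induction_on with
  | empty => simpa using Db_const 0
  | insert i S hi ih =>
    have h1 : DifferentiableAt ℝ (fun s => ∑ i ∈ S, h i s) t :=
      DifferentiableAt.fun_sum fun j hj => hh j (Finset.mem_insert_of_mem hj)
    simp only [Finset.sum_insert hi]
    rw [Db_add (hh i (Finset.mem_insert_self _ _)) h1,
      ih fun j hj => hh j (Finset.mem_insert_of_mem hj)]

/-- holomorphic near `t` -/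
theorem deriv_differentiableAt {F : Type*} [NormedAddCommGroup F] [NormedSpace ℂ F]
    [CompleteSpace F] {c : ℂ → F} (hc : ∀ᶠ s in 𝓝 t, DifferentiableAt ℂ c s) :
    DifferentiableAt ℂ (deriv c) t := by
  obtain ⟨V, hV, hVo, htV⟩ := _root_.eventually_nhds_iff.1 hc
  have h1 : DifferentiableOn ℂ c V := fun s hs => (hV s hs).differentiableWithinAt
  exact (h1.deriv hVo).differentiableAt (hVo.mem_nhds htV)

theorem deriv_pi_diff (hc : ∀ᶠ s in 𝓝 t, DifferentiableAt ℂ c s) (i : Fin 2) :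
    DifferentiableAt ℂ (fun s => deriv c s i) t :=
  differentiableAt_pi.1 (deriv_differentiableAt hc) i

/-- coefficients times velocities: `∂/∂t` of a pulled back `(0,1)`-form -/
theorem D1_pb01 {a : Fin 2 → C2 → ℂ} (ha : ∀ j, DifferentiableAt ℝ (a j) (c t))
    (hc : ∀ᶠ s in 𝓝 t, DifferentiableAt ℂ c s) :
    D1 (fun s => ∑ j, a j (c s) * conj (deriv c s j)) t =
      ∑ i, ∑ j, dz i (a j) (c t) * (deriv c t i * conj (deriv c t j)) := by
  have hct := hc.self_of_nhds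
  have h1 : ∀ j, DifferentiableAt ℝ (fun s => a j (c s)) t := fun j =>
    DifferentiableAt.comp (g := a j) t (ha j) (hct.restrictScalars ℝ)
  have h2 : ∀ j, DifferentiableAt ℝ (fun s => deriv c s j) t := fun j =>
    (deriv_pi_diff hc j).restrictScalars ℝ
  have h3 : ∀ j, DifferentiableAt ℝ (fun s => conj (deriv c s j)) t := fun j =>
    differentiableAt_conj1 (h2 j)
  rw [D1_sum _ fun j _ => (h1 j).fun_mul (h3 j)]
  have h4 : ∀ j, D1 (fun s => a j (c s) * conj (deriv c s j)) t =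
      ∑ i, dz i (a j) (c t) * (deriv c t i * conj (deriv c t j)) := by
    intro j
    rw [D1_mul (h1 j) (h3 j), D1_conj (h2 j), Db_hol (deriv_pi_diff hc j), map_zero, mul_zero,
      zero_add, D1_curve (ha j) hct, Finset.sum_mul]
    exact Finset.sum_congr rfl fun i _ => by ring
  simp only [h4]
  rw [Finset.sum_comm]

/-- `∂/∂t̄` of a pulled back `(1,0)`-form -/
theorem Db_pb10 {a : Fin 2 → C2 → ℂ} (ha : ∀ j, DifferentiableAt ℝ (a j) (c t))
    (hc : ∀ᶠ s in 𝓝 t, DifferentiableAt ℂ c s) :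
    Db (fun s => ∑ i, a i (c s) * deriv c s i) t =
      ∑ i, ∑ j, dzb j (a i) (c t) * (deriv c t i * conj (deriv c t j)) := by
  have hct := hc.self_of_nhds
  have h1 : ∀ j, DifferentiableAt ℝ (fun s => a j (c s)) t := fun j =>
    DifferentiableAt.comp (g := a j) t (ha j) (hct.restrictScalars ℝ)
  have h2 : ∀ j, DifferentiableAt ℝ (fun s => deriv c s j) t := fun j =>
    (deriv_pi_diff hc j).restrictScalars ℝ
  rw [Db_sum _ fun j _ => (h1 j).fun_mul (h2 j)]
  refine Finset.sum_congr rfl fun i _ => ?_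
  rw [Db_mul (h1 i) (h2 i), Db_hol (deriv_pi_diff hc i), mul_zero, zero_add,
    Db_curve (ha i) hct, Finset.sum_mul]
  exact Finset.sum_congr rfl fun j _ => by ring

/-- `∂∂̄` of a function along a holomorphic curve -/
theorem D1_Db_curve (hu : ContDiffAt ℝ 2 u (c t))
    (hc : ∀ᶠ s in 𝓝 t, DifferentiableAt ℂ c s) :
    D1 (Db fun s => u (c s)) t =
      ∑ i, ∑ j, ddz u (c t) i j * (deriv c t i * conj (deriv c t j)) := by
  have hct := hc.self_of_nhds
  have h1 : (Db fun s => u (c s)) =ᶠ[𝓝 t] fun s => ∑ j, dzb j u (c s) * conj (deriv c s j) := by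
    have h2 : ∀ᶠ s in 𝓝 t, ContDiffAt ℝ 2 u (c s) :=
      hct.continuousAt.eventually (hu.eventually (by simp))
    filter_upwards [h2, hc] with s h3 h4
    exact Db_curve (h3.differentiableAt (by norm_num)) h4
  rw [D1_congr h1, D1_pb01 (fun j => differentiableAt_dzb hu j) hc]
  rfl

end flat

/-! ### on the surface -/

variable {X : Type*} [TopologicalSpace X] [ChartedSpace C2 X]

/-- pull-back of a `(1,0)`-form -/
def pb10 (f : ℂ → X) (a : X → Fin 2 → ℂ) (t : ℂ) : ℂ :=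
  ∑ i, a (f t) i * vel f (chartAt C2 (f t)) t i

/-- pull-back of a `(0,1)`-form -/
def pb01 (f : ℂ → X) (a : X → Fin 2 → ℂ) (t : ℂ) : ℂ :=
  ∑ j, a (f t) j * conj (vel f (chartAt C2 (f t)) t j)

section

variable [IsManifold 𝓘(ℂ, C2) ω X] {f : ℂ → X}

theorem pb10_chart {t : ℂ} (hf : MDifferentiableAt 𝓘(ℂ) 𝓘(ℂ, C2) f t) (a : X → Fin 2 → ℂ)
    {e : Ch X} (he : e ∈ atlas C2 X) (ht : f t ∈ e.source) :
    pb10 f a t = ∑ i, loc10 e a (e (f t)) i * vel f e t i := by
  rw [pb10, vel_change hf he (chart_mem_atlas C2 (f t)) ht (mem_chart_source C2 (f t))]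
  simp only [loc10, e.left_inv ht, jac, Matrix.mulVec, dotProduct, Fin.sum_univ_two, smul_eq_mul]
  ring

theorem pb01_chart {t : ℂ} (hf : MDifferentiableAt 𝓘(ℂ) 𝓘(ℂ, C2) f t) (a : X → Fin 2 → ℂ)
    {e : Ch X} (he : e ∈ atlas C2 X) (ht : f t ∈ e.source) :
    pb01 f a t = ∑ j, loc1 0 e a (e (f t)) j * conj (vel f e t j) := by
  rw [pb01, vel_change hf he (chart_mem_atlas C2 (f t)) ht (mem_chart_source C2 (f t))]
  simp only [loc1, e.left_inv ht, jac, Matrix.mulVec, dotProduct, Fin.sum_univ_two, smul_eq_mul,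
    zpow_zero, map_add, map_mul]
  ring

/-- the curve in a chart is holomorphic -/
theorem curve_eventually (hf : MDifferentiable 𝓘(ℂ) 𝓘(ℂ, C2) f) {e : Ch X} (he : e ∈ atlas C2 X)
    {t : ℂ} (ht : f t ∈ e.source) :
    ∀ᶠ s in 𝓝 t, f s ∈ e.source ∧ DifferentiableAt ℂ (fun s => e (f s)) s := by
  have h1 : ∀ᶠ s in 𝓝 t, f s ∈ e.source :=
    hf.continuous.continuousAt.eventually (e.open_source.mem_nhds ht)
  filter_upwards [h1] with s hs
  exact ⟨hs, differentiableAt_chart_comp (hf s) he hs⟩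

theorem contDiffAt_vel (hf : MDifferentiable 𝓘(ℂ) 𝓘(ℂ, C2) f) {e : Ch X} (he : e ∈ atlas C2 X)
    {t : ℂ} (ht : f t ∈ e.source) (i : Fin 2) : ContDiffAt ℝ ∞ (fun s => vel f e s i) t := by
  obtain ⟨V, hV, hVo, htV⟩ := _root_.eventually_nhds_iff.1 (curve_eventually hf he ht)
  have h1 : DifferentiableOn ℂ (fun s => e (f s)) V := fun s hs => (hV s hs).2.differentiableWithinAt
  have h2 : ContDiffOn ℂ ∞ (deriv fun s => e (f s)) V := (h1.deriv hVo).contDiffOn hVo
  have h3 : ContDiffAt ℂ ∞ (deriv fun s => e (f s)) t := h2.contDiffAt (hVo.mem_nhds htV)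
  exact contDiffAt_pi.1 (h3.restrict_scalars ℝ) i

theorem contDiffAt_curve (hf : MDifferentiable 𝓘(ℂ) 𝓘(ℂ, C2) f) {e : Ch X} (he : e ∈ atlas C2 X)
    {t : ℂ} (ht : f t ∈ e.source) : ContDiffAt ℝ ∞ (fun s => e (f s)) t := by
  obtain ⟨V, hV, hVo, htV⟩ := _root_.eventually_nhds_iff.1 (curve_eventually hf he ht)
  have h1 : DifferentiableOn ℂ (fun s => e (f s)) V := fun s hs => (hV s hs).2.differentiableWithinAt
  exact ((h1.contDiffOn hVo).contDiffAt (hVo.mem_nhds htV)).restrict_scalars ℝ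

theorem contDiff_pb10 (hf : MDifferentiable 𝓘(ℂ) 𝓘(ℂ, C2) f) {a : X → Fin 2 → ℂ}
    (ha : Reg10 ∞ a) : ContDiff ℝ ∞ (pb10 f a) := by
  rw [contDiff_iff_contDiffAt]
  intro t
  set e := chartAt C2 (f t) with he'
  have he : e ∈ atlas C2 X := chart_mem_atlas C2 (f t)
  have ht : f t ∈ e.source := mem_chart_source C2 (f t)
  have h1 : pb10 f a =ᶠ[𝓝 t] fun s => ∑ i, loc10 e a (e (f s)) i * vel f e s i := by
    filter_upwards [curve_eventually hf he ht] with s hs
    exact pb10_chart (hf s) a he hs.1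
  refine ContDiffAt.congr_of_eventuallyEq ?_ h1
  refine ContDiffAt.sum fun i _ => ?_
  have h2 : ContDiffAt ℝ ∞ (loc10 e a) (e (f t)) :=
    (ha e he).contDiffAt (e.open_target.mem_nhds (e.map_source ht))
  have h3 := contDiffAt_pi.1 (ContDiffAt.comp t h2 (contDiffAt_curve hf he ht)) i
  exact ContDiffAt.mul h3 (contDiffAt_vel hf he ht i)

theorem contDiff_pb01 (hf : MDifferentiable 𝓘(ℂ) 𝓘(ℂ, C2) f) {a : X → Fin 2 → ℂ}
    (ha : Reg1 ∞ 0 a) : ContDiff ℝ ∞ (pb01 f a) := by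
  rw [contDiff_iff_contDiffAt]
  intro t
  set e := chartAt C2 (f t) with he'
  have he : e ∈ atlas C2 X := chart_mem_atlas C2 (f t)
  have ht : f t ∈ e.source := mem_chart_source C2 (f t)
  have h1 : pb01 f a =ᶠ[𝓝 t] fun s => ∑ i, loc1 0 e a (e (f s)) i * conj (vel f e s i) := by
    filter_upwards [curve_eventually hf he ht] with s hs
    exact pb01_chart (hf s) a he hs.1
  refine ContDiffAt.congr_of_eventuallyEq ?_ h1
  refine ContDiffAt.sum fun i _ => ?_
  have h2 : ContDiffAt ℝ ∞ (loc1 0 e a) (e (f t)) :=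
    (ha e he).contDiffAt (e.open_target.mem_nhds (e.map_source ht))
  have h3 := contDiffAt_pi.1 (ContDiffAt.comp t h2 (contDiffAt_curve hf he ht)) i
  have h4 : ContDiffAt ℝ ∞ (fun s => conj (vel f e s i)) t :=
    Complex.conjCLE.contDiff.contDiffAt.comp t (contDiffAt_vel hf he ht i)
  exact ContDiffAt.mul h3 h4

/-- `d` commutes with the pull-back -/
theorem pbC_d (hf : MDifferentiable 𝓘(ℂ) 𝓘(ℂ, C2) f) {A : OneF X} (hA : A.Smooth) (t : ℂ) :
    pbC f A.d t = D1 (pb01 f A.f01) t - Db (pb10 f A.f10) t := by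
  set e := chartAt C2 (f t) with he'
  have he : e ∈ atlas C2 X := chart_mem_atlas C2 (f t)
  have ht : f t ∈ e.source := mem_chart_source C2 (f t)
  have hev := curve_eventually hf he ht
  have h1 : pb01 f A.f01 =ᶠ[𝓝 t] fun s => ∑ j, (fun j z => loc1 0 e A.f01 z j) j (e (f s)) *
      conj (deriv (fun s => e (f s)) s j) := by
    filter_upwards [hev] with s hs
    exact pb01_chart (hf s) A.f01 he hs.1
  have h2 : pb10 f A.f10 =ᶠ[𝓝 t] fun s => ∑ i, (fun i z => loc10 e A.f10 z i) i (e (f s)) *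
      deriv (fun s => e (f s)) s i := by
    filter_upwards [hev] with s hs
    exact pb10_chart (hf s) A.f10 he hs.1
  have hn := e.open_target.mem_nhds (e.map_source ht)
  have d1 : ∀ j, DifferentiableAt ℝ (fun z => loc1 0 e A.f01 z j) (e (f t)) := fun j =>
    differentiableAt_pi.1 (((hA.s01 e he).contDiffAt hn).differentiableAt (by simp)) j
  have d2 : ∀ j, DifferentiableAt ℝ (fun z => loc10 e A.f10 z j) (e (f t)) := fun j =>
    differentiableAt_pi.1 (((hA.s10 e he).contDiffAt hn).differentiableAt (by simp)) j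
  rw [D1_congr h1, Db_congr h2, D1_pb01 (c := fun s => e (f s)) d1 (hev.mono fun s hs => hs.2),
    Db_pb10 (c := fun s => e (f s)) d2 (hev.mono fun s hs => hs.2), pbC, ← Finset.sum_sub_distrib]
  refine Finset.sum_congr rfl fun i _ => ?_
  rw [← Finset.sum_sub_distrib]
  refine Finset.sum_congr rfl fun j _ => ?_
  have e1 : A.d.f11 (f t) i j = dz i (fun z => loc1 0 e A.f01 z j) (e (f t)) +
      -dzb j (fun z => loc10 e A.f10 z i) (e (f t)) := rfl
  rw [e1]
  simp only [vel, ← he']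
  ring

theorem continuous_pbC (hf : MDifferentiable 𝓘(ℂ) 𝓘(ℂ, C2) f) {F : TwoF X} (hF : F.Smooth) :
    Continuous (pbC f F) := by
  rw [continuous_iff_continuousAt]
  intro t
  set e := chartAt C2 (f t) with he'
  have he : e ∈ atlas C2 X := chart_mem_atlas C2 (f t)
  have ht : f t ∈ e.source := mem_chart_source C2 (f t)
  have h1 : pbC f F =ᶠ[𝓝 t] fun s => ∑ i, ∑ j, loc11 e F.f11 (e (f s)) i j *
      (vel f e s i * conj (vel f e s j)) := by
    filter_upwards [curve_eventually hf he ht] with s hs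
    exact pbC_chart (hf s) F he hs.1
  refine ContinuousAt.congr ?_ h1.symm
  refine tendsto_finsetSum _ fun i _ => tendsto_finsetSum _ fun j _ => ?_
  have hn := e.open_target.mem_nhds (e.map_source ht)
  have h2 : ContinuousAt (fun z => loc11 e F.f11 z i j) (e (f t)) :=
    ((hF.s11 e he i j).contDiffAt hn).continuousAt
  have h3 : ContinuousAt (fun s => loc11 e F.f11 (e (f s)) i j) t :=
    ContinuousAt.comp (g := fun z => loc11 e F.f11 z i j) h2 (contDiffAt_curve hf he ht).continuousAt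
  have h4 : ∀ i, ContinuousAt (fun s => vel f e s i) t := fun i =>
    (contDiffAt_vel hf he ht i).continuousAt
  have h5 : ContinuousAt (fun s => conj (vel f e s j)) t :=
    Complex.continuous_conj.continuousAt.comp (h4 j)
  exact h3.mul ((h4 i).mul h5)

/-! ### `ℙ¹` -/

variable (φ : P1Map X)

/-- the velocities in the two coordinate planes -/
theorem vel_glue {e : Ch X} (he : e ∈ atlas C2 X) {t : ℂ} (ht0 : t ≠ 0)
    (ht : φ.f₀ t ∈ e.source) : vel φ.f₀ e t = (-(t ^ 2)⁻¹ : ℂ) • vel φ.f₁ e t⁻¹ := by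
  have h1 : (fun s => e (φ.f₀ s)) =ᶠ[𝓝 t] fun s => (fun s => e (φ.f₁ s)) s⁻¹ := by
    filter_upwards [isOpen_ne.mem_nhds ht0] with s hs
    rw [φ.glue s hs]
  have h2 : φ.f₁ t⁻¹ ∈ e.source := by rw [← φ.glue t ht0]; exact ht
  have h3 : DifferentiableAt ℂ (fun s => e (φ.f₁ s)) t⁻¹ :=
    differentiableAt_chart_comp (φ.holo₁ _) he h2
  rw [vel, h1.deriv_eq]
  exact (h3.hasDerivAt.scomp t (hasDerivAt_inv' ht0)).deriv

theorem pbC_glue (F : TwoF X) {t : ℂ} (ht0 : t ≠ 0) :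
    pbC φ.f₀ F t = ((‖-(t ^ 2)⁻¹‖ ^ 2 : ℝ) : ℂ) * pbC φ.f₁ F t⁻¹ := by
  have h1 := vel_glue φ (chart_mem_atlas C2 (φ.f₀ t)) ht0 (mem_chart_source C2 (φ.f₀ t))
  rw [pbC, pbC, h1, ← Complex.normSq_eq_norm_sq, ← Complex.mul_conj, φ.glue t ht0]
  simp only [Fin.sum_univ_two, Pi.smul_apply, smul_eq_mul, map_mul]
  ring

theorem pb01_glue (a : X → Fin 2 → ℂ) {t : ℂ} (ht0 : t ≠ 0) :
    pb01 φ.f₀ a t = conj (-(t ^ 2)⁻¹) * pb01 φ.f₁ a t⁻¹ := by
  have h1 := vel_glue φ (chart_mem_atlas C2 (φ.f₀ t)) ht0 (mem_chart_source C2 (φ.f₀ t))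
  rw [pb01, pb01, h1, φ.glue t ht0]
  simp only [Fin.sum_univ_two, Pi.smul_apply, smul_eq_mul, map_mul]
  ring

theorem pb10_glue (a : X → Fin 2 → ℂ) {t : ℂ} (ht0 : t ≠ 0) :
    pb10 φ.f₀ a t = (-(t ^ 2)⁻¹) * pb10 φ.f₁ a t⁻¹ := by
  have h1 := vel_glue φ (chart_mem_atlas C2 (φ.f₀ t)) ht0 (mem_chart_source C2 (φ.f₀ t))
  rw [pb10, pb10, h1, φ.glue t ht0]
  simp only [Fin.sum_univ_two, Pi.smul_apply, smul_eq_mul]
  ring

/-- the pull-back of a smooth two-form to `ℙ¹` is integrable -/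
theorem integrable_pbC {F : TwoF X} (hF : F.Smooth) : Integrable (pbC φ.f₀ F) :=
  integrable_P1 (continuous_pbC φ.holo₀ hF) (continuous_pbC φ.holo₁ hF) fun _ ht => pbC_glue φ F ht

/-- **Stokes**: the integral over `ℙ¹` of the pull-back of an exact form vanishes. -/
theorem integral_pbC_d {A : OneF X} (hA : A.Smooth) : ∫ t, pbC φ.f₀ A.d t = 0 := by
  have c : ∀ {g : ℂ → ℂ}, ContDiff ℝ ∞ g → ContDiff ℝ 1 g := fun h => h.of_le (by simp)
  obtain ⟨i1, z1⟩ := stokes_D1 (c (contDiff_pb01 φ.holo₀ hA.s01)) (c (contDiff_pb01 φ.holo₁ hA.s01))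
    fun t ht => pb01_glue φ A.f01 ht
  obtain ⟨i2, z2⟩ := stokes_Db (c (contDiff_pb10 φ.holo₀ hA.s10)) (c (contDiff_pb10 φ.holo₁ hA.s10))
    fun t ht => pb10_glue φ A.f10 ht
  simp only [pbC_d φ.holo₀ hA]
  rw [integral_sub i1 i2, z1, z2, sub_zero]

end

end Vale.Agent.P267.H823.PL
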