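import Vale.Agent.P267.H823.PL8
import Vale.Agent.P267.H662.KCanon

/-!
# P267, adjunction formula (helper823)

`φ` an embedded projective line in a complex surface, `N` a norm function whose zero set is the
image of `φ`, to first order; `LK` a bundle smoothly isomorphic to the canonical bundle. Then
`∫ φ^* curv LK + ∫ φ^* curv N = -2π` (coefficients of `dt ∧ dt̄`): the restriction of `K ⊗ 𝒪(C)` to
`C` is the canonical bundle of `C` (Poincaré residue).
-/

open scoped Manifold ContDiff ComplexConjugate Matrix Real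
open MeasureTheory Set Filter Topology

set_option linter.unusedSectionVars false

noncomputable section

namespace Vale.Agent.P267.H823.PL

open Vale.Agent.P267.FL Vale.Agent.P267.H332 Vale.Agent.P267.H757
open Vale.Agent.P267.H662 (lgn contDiffAt_lgn conn)

/-! ### the logarithm of a holomorphic function of one variable -/

theorem log_norm_sq_local {m : ℂ → ℂ} {t : ℂ} (hm : ∀ᶠ s in 𝓝 t, DifferentiableAt ℂ m s)
    (h0 : m t ≠ 0) : ∃ L : ℂ → ℂ, (∀ᶠ s in 𝓝 t, DifferentiableAt ℂ L s) ∧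
      (fun s => ((Real.log (‖m s‖ ^ 2) : ℝ) : ℂ)) =ᶠ[𝓝 t]
        fun s => (L s + conj (L s)) + ((Real.log (‖m t‖ ^ 2) : ℝ) : ℂ) := by
  have hslit : ∀ᶠ y in 𝓝 t, m y / m t ∈ Complex.slitPlane := by
    have : ContinuousAt (fun y => m y / m t) t := hm.self_of_nhds.continuousAt.div_const _
    refine this.eventually (Complex.isOpen_slitPlane.mem_nhds ?_)
    simp only [div_self h0]
    exact Complex.one_mem_slitPlane
  refine ⟨fun s => Complex.log (m s / m t), ?_, ?_⟩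
  · filter_upwards [hslit, hm] with s hs hd
    exact (hd.div_const _).clog hs
  · filter_upwards [hslit] with y hy
    have hy0 : m y ≠ 0 := by
      rintro h
      simp [h] at hy
    rw [Complex.add_conj, Complex.log_re, norm_div, Real.log_div (norm_ne_zero_iff.2 hy0)
      (norm_ne_zero_iff.2 h0), Real.log_pow, Real.log_pow]
    push_cast
    ring

theorem contDiffAt_of_eventually_holo {L : ℂ → ℂ} {t : ℂ}
    (hL : ∀ᶠ s in 𝓝 t, DifferentiableAt ℂ L s) : ContDiffAt ℝ 2 L t := by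
  obtain ⟨V, hV, hVo, htV⟩ := _root_.eventually_nhds_iff.1 hL
  have h1 : DifferentiableOn ℂ L V := fun s hs => (hV s hs).differentiableWithinAt
  exact ((h1.contDiffOn hVo).contDiffAt (hVo.mem_nhds htV)).restrict_scalars ℝ

theorem log_norm_sq_smooth {m : ℂ → ℂ} {t : ℂ} (hm : ∀ᶠ s in 𝓝 t, DifferentiableAt ℂ m s)
    (h0 : m t ≠ 0) : ContDiffAt ℝ 2 (fun s => ((Real.log (‖m s‖ ^ 2) : ℝ) : ℂ)) t := by
  obtain ⟨L, hL, h1⟩ := log_norm_sq_local hm h0
  have h2 := contDiffAt_of_eventually_holo hL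
  have h3 : ContDiffAt ℝ 2 (fun s => conj (L s)) t :=
    Complex.conjCLE.contDiff.contDiffAt.comp t h2
  exact ((h2.add h3).add contDiffAt_const).congr_of_eventuallyEq h1

theorem log_norm_sq_harmonic {m : ℂ → ℂ} {t : ℂ} (hm : ∀ᶠ s in 𝓝 t, DifferentiableAt ℂ m s)
    (h0 : m t ≠ 0) : D1 (Db fun s => ((Real.log (‖m s‖ ^ 2) : ℝ) : ℂ)) t = 0 := by
  obtain ⟨L, hL, h1⟩ := log_norm_sq_local hm h0
  have h2 : (Db fun s => ((Real.log (‖m s‖ ^ 2) : ℝ) : ℂ)) =ᶠ[𝓝 t] fun s => conj (deriv L s) := by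
    filter_upwards [h1.eventually_nhds, hL] with s h3 h4
    have h5 : DifferentiableAt ℝ L s := h4.restrictScalars ℝ
    have h6 : DifferentiableAt ℝ (fun s => conj (L s)) s := differentiableAt_conj1 h5
    have h7 : DifferentiableAt ℝ (fun s => L s + conj (L s)) s := h5.add h6
    rw [Db_congr h3, Db_add h7 (differentiableAt_const _), Db_add h5 h6, Db_const,
      Db_hol h4, Db_conj h5, D1_hol h4]
    ring
  have h3 := deriv_differentiableAt hL
  rw [D1_congr h2, D1_conj (h3.restrictScalars ℝ), Db_hol h3, map_zero]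

/-! ### velocities -/

variable {X : Type*} [TopologicalSpace X] [ChartedSpace C2 X] [IsManifold 𝓘(ℂ, C2) ω X]

theorem vel_ne_zero {f : ℂ → X} {t : ℂ} (hf : MDifferentiableAt 𝓘(ℂ) 𝓘(ℂ, C2) f t)
    (himm : Function.Injective (mfderiv 𝓘(ℂ) 𝓘(ℂ, C2) f t)) {e : Ch X} (he : e ∈ atlas C2 X)
    (ht : f t ∈ e.source) : vel f e t ≠ 0 := by
  intro h0
  have h1 : HasFDerivAt (fun s => e (f s)) (0 : ℂ →L[ℂ] C2) t := by
    have h2 := (differentiableAt_chart_comp hf he ht).hasDerivAt.hasFDerivAt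
    have h3 : deriv (fun s => e (f s)) t = 0 := h0
    have h4 : ContinuousLinearMap.toSpanSingleton ℂ (0 : C2) = 0 := by
      ext
      simp
    rw [h3, h4] at h2
    exact h2
  have h2 : HasMFDerivAt 𝓘(ℂ) 𝓘(ℂ, C2) (fun s => e (f s)) t (0 : ℂ →L[ℂ] C2) := h1.hasMFDerivAt
  have h3 : HasMFDerivAt 𝓘(ℂ, C2) 𝓘(ℂ, C2) e.symm (e (f t))
      (mfderiv 𝓘(ℂ, C2) 𝓘(ℂ, C2) e.symm (e (f t))) :=
    (mdifferentiableAt_atlas_symm he (e.map_source ht)).hasMFDerivAt
  have h4 := HasMFDerivAt.comp t h3 h2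
  have h5 : f =ᶠ[𝓝 t] e.symm ∘ fun s => e (f s) := by
    filter_upwards [hf.continuousAt.eventually (e.open_source.mem_nhds ht)] with s hs
    simp only [Function.comp_apply, e.left_inv hs]
  have h6 := (h4.congr_of_eventuallyEq h5).mfderiv
  have h7 : mfderiv 𝓘(ℂ) 𝓘(ℂ, C2) f t = 0 := by
    rw [h6]
    exact ContinuousLinearMap.comp_zero _
  have h8 : (1 : ℂ) = (0 : ℂ) := himm (by rw [h7]; rfl)
  exact one_ne_zero h8

/-! ### the function on the curve -/

variable {ι : Type} [Fintype ι] [DecidableEq ι]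

/-- `|μ|^{-2} e^{-ψ} |σ|²`, invariantly -/
def adjG (N : X → ℝ) (σ : X → EuclideanSpace ℂ ι) (f : ℂ → X) (t : ℂ) : ℝ :=
  (ddz (fun y => (N ((chartAt C2 (f t)).symm y) : ℂ)) (chartAt C2 (f t) (f t))).trace.re *
    ‖σ (f t)‖ ^ 2 /
    (‖vel f (chartAt C2 (f t)) t 0‖ ^ 2 + ‖vel f (chartAt C2 (f t)) t 1‖ ^ 2)

/-- the covector `∂g` in the chart `e` -/
def cvg (g : X → ℂ) (e : Ch X) (x : X) (i : Fin 2) : ℂ := dz i (fun z => g (e.symm z)) (e x)

theorem cvg_change {g : X → ℂ} {U : Set X} (hU : IsOpen U)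
    (hg : MDifferentiableOn 𝓘(ℂ, C2) 𝓘(ℂ) g U) {e e' : Ch X} (he : e ∈ atlas C2 X)
    (he' : e' ∈ atlas C2 X) {x : X} (hx : x ∈ e.source) (hx' : x ∈ e'.source) (hxU : x ∈ U)
    (i : Fin 2) : cvg g e x i = ∑ p, jacM e e' x p i * cvg g e' x p := by
  have hD' : IsOpen (e'.target ∩ e'.symm ⁻¹' U) := e'.symm.isOpen_inter_preimage hU
  have hgd : DifferentiableAt ℂ (fun z => g (e'.symm z)) (e' x) :=
    (differentiableOn_chart he' hg).differentiableAt
      (hD'.mem_nhds ⟨e'.map_source hx', by rwa [mem_preimage, e'.left_inv hx']⟩)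
  have hev : (fun z => g (e.symm z)) =ᶠ[𝓝 (e x)]
      fun z => (fun w => g (e'.symm w)) (e' (e.symm z)) := by
    filter_upwards [(isOpen_trans e e').mem_nhds (mem_trans hx hx')] with z hz
    simp only [e'.left_inv hz.2]
  have htr := trans_differentiableAt he he' hx hx'
  have h3 := dz_comp (f := fun w => g (e'.symm w)) (g := fun z => e' (e.symm z)) (z := e x)
    (by simp only [e.left_inv hx]; exact hgd.restrictScalars ℝ) htr i
  rw [cvg, dz_congr hev, h3]
  refine Finset.sum_congr rfl fun p _ => ?_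
  simp only [smul_eq_mul, e.left_inv hx]
  rfl

/-- the trace of `∂∂̄N` at a zero of `N` -/
theorem trace_ddz {N : X → ℝ} {U : Set X} {g : X → ℂ} {ψ : X → ℝ} (h : LocRep C2 N U g ψ)
    {e : Ch X} (he : e ∈ atlas C2 X) {x : X} (hx : x ∈ e.source) (hxU : x ∈ U) (h0 : N x = 0) :
    (ddz (fun y => (N (e.symm y) : ℂ)) (e x)).trace.re =
      Real.exp (-ψ x) * (‖cvg g e x 0‖ ^ 2 + ‖cvg g e x 1‖ ^ 2) := by
  have hD := lr_isOpen h e
  have hmem : e x ∈ e.target ∩ e.symm ⁻¹' U :=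
    ⟨e.map_source hx, by rwa [mem_preimage, e.left_inv hx]⟩
  have hg : AnalyticAt ℂ (fun z => g (e.symm z)) (e x) :=
    P268.analyticAt_of_differentiableOn hD (differentiableOn_chart he h.hol) hmem
  have hψ : ContDiffAt ℝ 2 (fun z => ψ (e.symm z)) (e x) :=
    ((contDiffOn_chart he h.smooth).of_le (WithTop.coe_le_coe.2 le_top)).contDiffAt
      (hD.mem_nhds hmem)
  have hNe : (fun z => N (e.symm z)) =ᶠ[𝓝 (e x)]
      fun y => ‖g (e.symm y)‖ ^ 2 * Real.exp (-ψ (e.symm y)) := by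
    filter_upwards [hD.mem_nhds hmem] with y hy
    exact h.eq _ hy.2
  have hg0 : g (e.symm (e x)) = 0 := by
    rw [e.left_inv hx]
    exact (h.eq_zero_iff hxU).1 h0
  have hcov : ∀ i, cov (fun z => g (e.symm z)) (fun z => ψ (e.symm z)) (e x) i = cvg g e x i := by
    intro i
    rw [cov, hg0, zero_mul, sub_zero, cvg]
  rw [Matrix.trace_fin_two, ddz_N hg hψ hNe, ddz_N hg hψ hNe, hcov, hcov]
  simp only [e.left_inv hx, h0, Complex.ofReal_zero, zero_mul, sub_zero]
  rw [mul_assoc, mul_assoc, Complex.mul_conj, Complex.mul_conj, ← mul_add, ← Complex.ofReal_add,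
    ← Complex.ofReal_mul, Complex.ofReal_re, Complex.normSq_eq_norm_sq, Complex.normSq_eq_norm_sq]

/-- the local form of `adjG` -/
theorem adjG_local {N : X → ℝ} {U : Set X} {g : X → ℂ} {ψ : X → ℝ} (h : LocRep C2 N U g ψ)
    (σ : X → EuclideanSpace ℂ ι) {f : ℂ → X} {t : ℂ}
    (hf : MDifferentiableAt 𝓘(ℂ) 𝓘(ℂ, C2) f t) {e : Ch X} (he : e ∈ atlas C2 X)
    (ht : f t ∈ e.source) (htU : f t ∈ U) (h0 : N (f t) = 0) {m : ℂ} (hm : m ≠ 0)
    (hm0 : vel f e t 0 = -(m * cvg g e (f t) 1)) (hm1 : vel f e t 1 = m * cvg g e (f t) 0)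
    (hne : cvg g e (f t) 0 ≠ 0 ∨ cvg g e (f t) 1 ≠ 0) :
    adjG N σ f t = (‖m‖ ^ 2)⁻¹ * Real.exp (-ψ (f t)) * ‖loc0 (-1) e σ (e (f t))‖ ^ 2 := by
  set x := f t with hx
  set e' := chartAt C2 x with he'd
  have he' : e' ∈ atlas C2 X := chart_mem_atlas C2 x
  have hx' : x ∈ e'.source := mem_chart_source C2 x
  have hJ : (jac e x).det ≠ 0 := jac_det_ne_zero he ht
  have hvel := vel_change hf he he' ht hx'
  have hJe : jacM e e' x = jac e x := rfl
  rw [hJe] at hvel
  have c0 := cvg_change h.isOpen h.hol he he' ht hx' htU 0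
  have c1 := cvg_change h.isOpen h.hol he he' ht hx' htU 1
  rw [hJe, Fin.sum_univ_two] at c0 c1
  set a0 := cvg g e' x 0 with ha0
  set a1 := cvg g e' x 1 with ha1
  have v0 : vel f e' t 0 = -(m * (jac e x).det * a1) := by
    rw [hvel]
    simp only [Matrix.mulVec, dotProduct, Fin.sum_univ_two]
    rw [hm0, hm1, c0, c1, Matrix.det_fin_two]
    ring
  have v1 : vel f e' t 1 = m * (jac e x).det * a0 := by
    rw [hvel]
    simp only [Matrix.mulVec, dotProduct, Fin.sum_univ_two]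
    rw [hm0, hm1, c0, c1, Matrix.det_fin_two]
    ring
  have ha : 0 < ‖a0‖ ^ 2 + ‖a1‖ ^ 2 := by
    by_contra hcon
    have h1 : ‖a0‖ ^ 2 + ‖a1‖ ^ 2 = 0 := le_antisymm (not_lt.1 hcon) (by positivity)
    have h2 : a0 = 0 := by
      have : ‖a0‖ ^ 2 = 0 := by nlinarith [sq_nonneg ‖a0‖, sq_nonneg ‖a1‖]
      simpa using this
    have h3 : a1 = 0 := by
      have : ‖a1‖ ^ 2 = 0 := by nlinarith [sq_nonneg ‖a0‖, sq_nonneg ‖a1‖]
      simpa using this
    rw [h2, h3] at c0 c1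
    simp only [mul_zero, add_zero] at c0 c1
    rcases hne with h4 | h4
    · exact h4 c0
    · exact h4 c1
  rw [adjG, ← hx, ← he'd, trace_ddz h he' hx' htU h0, v0, v1, norm_neg, norm_mul, norm_mul,
    norm_mul, norm_mul, ← ha0, ← ha1, loc0, e.left_inv ht, norm_smul, zpow_neg_one, norm_inv]
  have hmn : ‖m‖ ≠ 0 := norm_ne_zero_iff.2 hm
  have hJn : ‖(jac e x).det‖ ≠ 0 := norm_ne_zero_iff.2 hJ
  have h5 : (‖m‖ * ‖(jac e x).det‖ * ‖a1‖) ^ 2 + (‖m‖ * ‖(jac e x).det‖ * ‖a0‖) ^ 2 =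
      (‖m‖ * ‖(jac e x).det‖) ^ 2 * (‖a0‖ ^ 2 + ‖a1‖ ^ 2) := by ring
  rw [h5]
  have h6 : ‖a0‖ ^ 2 + ‖a1‖ ^ 2 ≠ 0 := ha.ne'
  field_simp

/-- **the local description of the logarithm of `adjG`** -/
theorem adj_main {N : X → ℝ} {U : Set X} {g : X → ℂ} {ψ : X → ℝ} (h : LocRep C2 N U g ψ)
    {σ : X → EuclideanSpace ℂ ι} (hσ : Reg0 ∞ (-1) σ) (hσ0 : ∀ x, σ x ≠ 0)
    {f : ℂ → X} (hf : MDifferentiable 𝓘(ℂ) 𝓘(ℂ, C2) f) (hNf : ∀ s, N (f s) = 0) {t : ℂ}
    (himm : Function.Injective (mfderiv 𝓘(ℂ) 𝓘(ℂ, C2) f t))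
    (htU : f t ∈ U) (hne : mfderiv 𝓘(ℂ, C2) 𝓘(ℂ) g (f t) ≠ 0) :
    0 < adjG N σ f t ∧ ContDiffAt ℝ 2 (fun s => ((Real.log (adjG N σ f s) : ℝ) : ℂ)) t ∧
    D1 (Db fun s => ((Real.log (adjG N σ f s) : ℝ) : ℂ)) t =
      -(∑ i, ∑ j, ddz (fun y => (ψ ((chartAt C2 (f t)).symm y) : ℂ)) (chartAt C2 (f t) (f t)) i j *
        (vel f (chartAt C2 (f t)) t i * conj (vel f (chartAt C2 (f t)) t j))) +
      ∑ i, ∑ j, ddz (lgn (loc0 (-1) (chartAt C2 (f t)) σ)) (chartAt C2 (f t) (f t)) i j *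
        (vel f (chartAt C2 (f t)) t i * conj (vel f (chartAt C2 (f t)) t j)) := by
  set e := chartAt C2 (f t) with he'
  have he : e ∈ atlas C2 X := chart_mem_atlas C2 (f t)
  have ht : f t ∈ e.source := mem_chart_source C2 (f t)
  have hev := curve_eventually hf he ht
  have hD := lr_isOpen h e
  have hgD : ∀ z ∈ e.target ∩ e.symm ⁻¹' U, AnalyticAt ℂ (fun z => g (e.symm z)) z := fun z hz =>
    P268.analyticAt_of_differentiableOn hD (differentiableOn_chart he h.hol) hz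
  have htD : e (f t) ∈ e.target ∩ e.symm ⁻¹' U :=
    ⟨e.map_source ht, by rwa [mem_preimage, e.left_inv ht]⟩
  have hevU : ∀ᶠ s in 𝓝 t, f s ∈ U := hf.continuous.continuousAt.eventually (h.isOpen.mem_nhds htU)
  -- velocity and covector along the curve
  have hvd : ∀ i, ∀ᶠ s in 𝓝 t, DifferentiableAt ℂ (fun s => vel f e s i) s := fun i => by
    filter_upwards [hev.eventually_nhds] with s hs
    exact deriv_pi_diff (hs.mono fun r hr => hr.2) i
  have had : ∀ i, ∀ᶠ s in 𝓝 t, DifferentiableAt ℂ (fun s => cvg g e (f s) i) s := fun i => by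
    filter_upwards [hev, hevU] with s hs hsU
    have h1 := (hol_dz (hgD (e (f s)) ⟨e.map_source hs.1, by
      rwa [mem_preimage, e.left_inv hs.1]⟩) i).differentiableAt
    exact DifferentiableAt.comp (g := dz i fun z => g (e.symm z)) s h1 hs.2
  -- orthogonality
  have horth : ∀ᶠ s in 𝓝 t, cvg g e (f s) 0 * vel f e s 0 + cvg g e (f s) 1 * vel f e s 1 = 0 := by
    filter_upwards [hev.eventually_nhds, hevU.eventually_nhds] with s hs hsU
    have hs1 := hs.self_of_nhds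
    have hsU1 := hsU.self_of_nhds
    have h1 : (fun r => (fun z => g (e.symm z)) (e (f r))) =ᶠ[𝓝 s] fun _ => 0 := by
      filter_upwards [hs, hsU] with r hr hrU
      simp only [e.left_inv hr.1]
      exact (h.eq_zero_iff hrU).1 (hNf r)
    have h2 : DifferentiableAt ℂ (fun z => g (e.symm z)) (e (f s)) :=
      (hgD _ ⟨e.map_source hs1.1, by rwa [mem_preimage, e.left_inv hs1.1]⟩).differentiableAt
    have h3 := D1_curve (u := fun z => g (e.symm z)) (c := fun s => e (f s)) (t := s)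
      (h2.restrictScalars ℝ) hs1.2
    rw [D1_congr h1, D1_const, Fin.sum_univ_two] at h3
    exact h3.symm
  -- the covector is not zero
  have hane : cvg g e (f t) 0 ≠ 0 ∨ cvg g e (f t) 1 ≠ 0 := by
    by_contra hcon
    push Not at hcon
    have h1 := fderiv_ne_zero h.isOpen h.hol htU hne
    apply h1
    ext v
    have h2 : DifferentiableAt ℂ (fun z => g (e.symm z)) (e (f t)) := (hgD _ htD).differentiableAt
    have h3 : ∀ i, fderiv ℂ (fun z => g (e.symm z)) (e (f t)) (Pi.single i 1) = cvg g e (f t) i :=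
      fun i => (dz_of_hol h2 i).symm
    conv_lhs => rw [c2_decomp v]
    rw [map_add, map_smul, map_smul, h3, h3, hcon.1, hcon.2]
    simp
  have hvne := vel_ne_zero (hf t) himm he ht
  -- the factor `μ`
  obtain ⟨m, hmd, hm0, hmv0, hmv1⟩ : ∃ m : ℂ → ℂ, (∀ᶠ s in 𝓝 t, DifferentiableAt ℂ m s) ∧
      m t ≠ 0 ∧ (∀ᶠ s in 𝓝 t, vel f e s 0 = -(m s * cvg g e (f s) 1)) ∧
      ∀ᶠ s in 𝓝 t, vel f e s 1 = m s * cvg g e (f s) 0 := by
    rcases hane with ha | ha
    · have hne' : ∀ᶠ s in 𝓝 t, cvg g e (f s) 0 ≠ 0 :=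
        (had 0).self_of_nhds.continuousAt.eventually_ne ha
      refine ⟨fun s => vel f e s 1 / cvg g e (f s) 0, ?_, ?_, ?_, ?_⟩
      · filter_upwards [hvd 1, had 0, hne'] with s h1 h2 h3
        exact h1.div h2 h3
      · intro hcon
        have h1 : vel f e t 1 = 0 := by
          rcases div_eq_zero_iff.1 hcon with h | h
          · exact h
          · exact absurd h ha
        have h2 := horth.self_of_nhds
        rw [h1, mul_zero, add_zero] at h2
        apply hvne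
        funext i
        fin_cases i
        · exact (mul_eq_zero.1 h2).resolve_left ha
        · exact h1
      · filter_upwards [horth, hne'] with s h1 h2
        field_simp
        linear_combination h1
      · filter_upwards [hne'] with s h2
        field_simp
    · have hne' : ∀ᶠ s in 𝓝 t, cvg g e (f s) 1 ≠ 0 :=
        (had 1).self_of_nhds.continuousAt.eventually_ne ha
      refine ⟨fun s => -vel f e s 0 / cvg g e (f s) 1, ?_, ?_, ?_, ?_⟩
      · filter_upwards [hvd 0, had 1, hne'] with s h1 h2 h3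
        exact h1.neg.div h2 h3
      · intro hcon
        have h1 : vel f e t 0 = 0 := by
          rcases div_eq_zero_iff.1 hcon with h | h
          · exact neg_eq_zero.1 h
          · exact absurd h ha
        have h2 := horth.self_of_nhds
        rw [h1, mul_zero, zero_add] at h2
        apply hvne
        funext i
        fin_cases i
        · exact h1
        · exact (mul_eq_zero.1 h2).resolve_left ha
      · filter_upwards [hne'] with s h2
        field_simp
      · filter_upwards [horth, hne'] with s h1 h2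
        field_simp
        linear_combination h1
  have hmne : ∀ᶠ s in 𝓝 t, m s ≠ 0 := hmd.self_of_nhds.continuousAt.eventually_ne hm0
  have hane' : ∀ᶠ s in 𝓝 t, cvg g e (f s) 0 ≠ 0 ∨ cvg g e (f s) 1 ≠ 0 := by
    rcases hane with ha | ha
    · exact ((had 0).self_of_nhds.continuousAt.eventually_ne ha).mono fun _ h => Or.inl h
    · exact ((had 1).self_of_nhds.continuousAt.eventually_ne ha).mono fun _ h => Or.inr h
  -- the local form
  have hloc : ∀ᶠ s in 𝓝 t, adjG N σ f s =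
      (‖m s‖ ^ 2)⁻¹ * Real.exp (-ψ (f s)) * ‖loc0 (-1) e σ (e (f s))‖ ^ 2 := by
    filter_upwards [hev, hevU, hmne, hmv0, hmv1, hane'] with s h1 h2 h3 h4 h5 h6
    exact adjG_local h σ (hf s) he h1.1 h2 (hNf s) h3 h4 h5 h6
  have hσe : ∀ z ∈ e.target, loc0 (-1) e σ z ≠ 0 := by
    intro z hz
    rw [loc0]
    exact smul_ne_zero (zpow_ne_zero _ (jac_det_ne_zero he (e.map_target hz))) (hσ0 _)
  have hpos : 0 < adjG N σ f t := by
    rw [hloc.self_of_nhds]
    have h1 := norm_pos_iff.2 hm0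
    have h2 := norm_pos_iff.2 (hσe _ (e.map_source ht))
    positivity
  refine ⟨hpos, ?_⟩
  have hlog : (fun s => ((Real.log (adjG N σ f s) : ℝ) : ℂ)) =ᶠ[𝓝 t]
      fun s => -((Real.log (‖m s‖ ^ 2) : ℝ) : ℂ) + (-(fun y => (ψ (e.symm y) : ℂ)) (e (f s)) +
        lgn (loc0 (-1) e σ) (e (f s))) := by
    filter_upwards [hloc, hmne, hev] with s h1 h2 h3
    have h4 := norm_pos_iff.2 h2
    have h5 := norm_pos_iff.2 (hσe _ (e.map_source h3.1))
    rw [h1, Real.log_mul (by positivity) (by positivity), Real.log_mul (by positivity)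
      (Real.exp_ne_zero _), Real.log_inv, Real.log_exp, lgn, e.left_inv h3.1]
    push_cast
    ring
  -- smoothness
  have hψe : ContDiffAt ℝ 2 (fun y => (ψ (e.symm y) : ℂ)) (e (f t)) :=
    (lr_cda h he htD.1 htD.2).of_le (WithTop.coe_le_coe.2 le_top)
  have hle : ContDiffAt ℝ 2 (lgn (loc0 (-1) e σ)) (e (f t)) :=
    (contDiffAt_lgn (hσ.contDiffAt he htD.1) (hσe _ htD.1)).of_le (WithTop.coe_le_coe.2 le_top)
  have hce : ContDiffAt ℝ 2 (fun s => e (f s)) t :=
    (contDiffAt_curve hf he ht).of_le (WithTop.coe_le_coe.2 le_top)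
  have s1 := log_norm_sq_smooth hmd hm0
  have s2 : ContDiffAt ℝ 2 (fun s => (fun y => (ψ (e.symm y) : ℂ)) (e (f s))) t :=
    ContDiffAt.comp t hψe hce
  have s3 : ContDiffAt ℝ 2 (fun s => lgn (loc0 (-1) e σ) (e (f s))) t :=
    ContDiffAt.comp (g := lgn (loc0 (-1) e σ)) (f := fun s => e (f s)) t hle hce
  refine ⟨(s1.neg.add (s2.neg.add s3)).congr_of_eventuallyEq hlog, ?_⟩
  have hdd : ∀ {u : ℂ → ℂ}, ContDiffAt ℝ 2 u t → ∀ᶠ s in 𝓝 t, DifferentiableAt ℝ u s := fun hu =>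
    (hu.eventually (by simp)).mono fun s hs => hs.differentiableAt (by norm_num)
  have hDb : (Db fun s => ((Real.log (adjG N σ f s) : ℝ) : ℂ)) =ᶠ[𝓝 t]
      fun s => -(Db (fun s => ((Real.log (‖m s‖ ^ 2) : ℝ) : ℂ)) s) +
        (-(Db (fun s => (fun y => (ψ (e.symm y) : ℂ)) (e (f s))) s) +
        Db (fun s => lgn (loc0 (-1) e σ) (e (f s))) s) := by
    filter_upwards [hlog.eventually_nhds, hdd s1, hdd s2, hdd s3] with s h1 h2 h3 h4
    have h5 : DifferentiableAt ℝ (fun s => -((Real.log (‖m s‖ ^ 2) : ℝ) : ℂ)) s := h2.neg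
    have h6 : DifferentiableAt ℝ (fun s => -(fun y => (ψ (e.symm y) : ℂ)) (e (f s))) s := h3.neg
    have h7 : DifferentiableAt ℝ (fun s => -(fun y => (ψ (e.symm y) : ℂ)) (e (f s)) +
        lgn (loc0 (-1) e σ) (e (f s))) s := h6.add h4
    rw [Db_congr h1, Db_add h5 h7, Db_add h6 h4, Db_neg, Db_neg]
  have hDbd : ∀ {u : ℂ → ℂ}, ContDiffAt ℝ 2 u t → DifferentiableAt ℝ (Db u) t := fun {u} hu => by
    have h1 : ContDiffAt ℝ 1 (fderiv ℝ u) t := hu.fderiv_right (by norm_num)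
    have h2 : DifferentiableAt ℝ (fderiv ℝ u) t := h1.differentiableAt one_ne_zero
    have h3 : ∀ v : ℂ, DifferentiableAt ℝ (fun s => fderiv ℝ u s v) t := fun v =>
      h2.clm_apply (differentiableAt_const v)
    exact (differentiableAt_const _).mul ((h3 1).add ((differentiableAt_const _).mul
      (h3 Complex.I)))
  have k1 := hDbd s1
  have k2 := hDbd s2
  have k3 := hDbd s3
  have k4 : DifferentiableAt ℝ (fun s => -(Db (fun s => ((Real.log (‖m s‖ ^ 2) : ℝ) : ℂ)) s)) t :=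
    k1.neg
  have k5 : DifferentiableAt ℝ
      (fun s => -(Db (fun s => (fun y => (ψ (e.symm y) : ℂ)) (e (f s))) s)) t := k2.neg
  have k6 : DifferentiableAt ℝ
      (fun s => -(Db (fun s => (fun y => (ψ (e.symm y) : ℂ)) (e (f s))) s) +
        Db (fun s => lgn (loc0 (-1) e σ) (e (f s))) s) t := k5.add k3
  have hcd := hev.mono fun s hs => hs.2
  rw [D1_congr hDb, D1_add k4 k6, D1_add k5 k3, D1_neg, D1_neg, log_norm_sq_harmonic hmd hm0,
    D1_Db_curve (u := fun y => (ψ (e.symm y) : ℂ)) (c := fun s => e (f s)) hψe hcd,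
    D1_Db_curve (u := lgn (loc0 (-1) e σ)) (c := fun s => e (f s)) hle hcd]
  simp only [vel, neg_zero, zero_add]

end Vale.Agent.P267.H823.PL
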