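import Mathlib

/-!
# P267, package CURV-C1 (helper823): Weierstrass preparation for holomorphic functions
-/

open Filter Topology Polynomial

namespace Vale.Agent.P267.H823

namespace WP

open scoped BoundedContinuousFunction NNReal ENNReal

/-- bounded sequences -/
def A : Type := ℕ →ᵇ ℂ

noncomputable instance : NormedAddCommGroup A := inferInstanceAs (NormedAddCommGroup (ℕ →ᵇ ℂ))

noncomputable instance : NormedSpace ℂ A := inferInstanceAs (NormedSpace ℂ (ℕ →ᵇ ℂ))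

instance : CompleteSpace A := inferInstanceAs (CompleteSpace (ℕ →ᵇ ℂ))

instance : FunLike A ℕ ℂ := inferInstanceAs (FunLike (ℕ →ᵇ ℂ) ℕ ℂ)

theorem norm_nn (ρ : ℝ≥0) : ‖(ρ : ℂ)‖ = ρ := by
  have h : ((ρ : ℝ≥0) : ℂ) = ((ρ : ℝ) : ℂ) := rfl
  rw [h, Complex.norm_real, Real.norm_eq_abs, NNReal.abs_eq]

theorem A_ext {f g : A} (h : ∀ n, f n = g n) : f = g := DFunLike.ext _ _ h

theorem A_norm_coe (f : A) (n : ℕ) : ‖f n‖ ≤ ‖f‖ :=
  BoundedContinuousFunction.norm_coe_le_norm (f : ℕ →ᵇ ℂ) n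

theorem A_norm_le {f : A} {C : ℝ} (hC : 0 ≤ C) (h : ∀ n, ‖f n‖ ≤ C) : ‖f‖ ≤ C :=
  (BoundedContinuousFunction.norm_le (f := (f : ℕ →ᵇ ℂ)) hC).2 h

@[simp] theorem A_add (f g : A) (n : ℕ) : (f + g) n = f n + g n := rfl

@[simp] theorem A_smul (c : ℂ) (f : A) (n : ℕ) : (c • f) n = c * f n := rfl

/-- sequences from bounded functions -/
noncomputable def mkA (f : ℕ → ℂ) (C : ℝ) (h : ∀ n, ‖f n‖ ≤ C) : A :=
  BoundedContinuousFunction.ofNormedAddCommGroupDiscrete f C h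

@[simp] theorem mkA_apply (f : ℕ → ℂ) (C : ℝ) (h : ∀ n, ‖f n‖ ≤ C) (n : ℕ) : mkA f C h n = f n :=
  rfl

/-- the coordinates as continuous functionals -/
noncomputable def cf (n : ℕ) : A →L[ℂ] ℂ :=
  LinearMap.mkContinuous
    { toFun := fun f => f n
      map_add' := fun _ _ => rfl
      map_smul' := fun _ _ => rfl } 1 (fun f => by
    rw [one_mul]
    exact A_norm_coe f n)

/-- the right shift -/
noncomputable def S : A →L[ℂ] A :=
  LinearMap.mkContinuous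
    { toFun := fun f => mkA (fun n : ℕ => if n = 0 then 0 else f (n - 1)) ‖f‖ (fun n => by
          split_ifs
          · simp
          · exact A_norm_coe f _)
      map_add' := fun f g => by
        refine A_ext fun n => ?_
        by_cases h : n = 0 <;> simp [h]
      map_smul' := fun c f => by
        refine A_ext fun n => ?_
        by_cases h : n = 0 <;> simp [h] } 1 (fun f => by
    rw [one_mul]
    refine A_norm_le (norm_nonneg _) fun n => ?_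
    by_cases h : n = 0
    · simp [h]
    · simp only [LinearMap.coe_mk, AddHom.coe_mk, mkA_apply, h, if_false]
      exact A_norm_coe f _)

@[simp] theorem S_zero (f : A) : S f 0 = 0 := by simp [S]

@[simp] theorem S_succ (f : A) (n : ℕ) : S f (n + 1) = f n := by simp [S]

theorem norm_S_le : ‖S‖ ≤ 1 := LinearMap.mkContinuous_norm_le _ zero_le_one _

theorem norm_S_pow_le (n : ℕ) : ‖S ^ n‖ ≤ 1 := by
  induction n with
  | zero =>
    rw [pow_zero]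
    exact ContinuousLinearMap.norm_id_le
  | succ n ih =>
    rw [pow_succ]
    calc ‖S ^ n * S‖ ≤ ‖S ^ n‖ * ‖S‖ := norm_mul_le _ _
      _ ≤ 1 * 1 := mul_le_mul ih norm_S_le (ContinuousLinearMap.opNorm_nonneg _) zero_le_one
      _ = 1 := one_mul 1

/-- the left shift -/
noncomputable def T : A →L[ℂ] A :=
  LinearMap.mkContinuous
    { toFun := fun f => mkA (fun n : ℕ => f (n + 1)) ‖f‖ (fun n => A_norm_coe f _)
      map_add' := fun f g => by
        refine A_ext fun n => ?_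
        simp
      map_smul' := fun c f => by
        refine A_ext fun n => ?_
        simp } 1 (fun f => by
    rw [one_mul]
    refine A_norm_le (norm_nonneg _) fun n => ?_
    simp only [LinearMap.coe_mk, AddHom.coe_mk, mkA_apply]
    exact A_norm_coe f _)

@[simp] theorem T_apply (f : A) (n : ℕ) : T f n = f (n + 1) := by simp [T]

theorem T_mul_S : T * S = 1 := by
  refine ContinuousLinearMap.ext fun f => A_ext fun n => ?_
  simp

theorem T_pow_mul_S_pow (b : ℕ) : T ^ b * S ^ b = 1 := by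
  induction b with
  | zero => simp
  | succ b ih =>
    rw [pow_succ, pow_succ']
    calc T ^ b * T * (S * S ^ b) = T ^ b * (T * S) * S ^ b := by simp only [mul_assoc]
      _ = 1 := by rw [T_mul_S, mul_one, ih]

theorem T_pow_apply (b : ℕ) (f : A) (n : ℕ) : (T ^ b) f n = f (n + b) := by
  induction b generalizing f n with
  | zero => simp
  | succ b ih =>
    rw [pow_succ]
    show (T ^ b) (T f) n = _
    rw [ih, T_apply, add_assoc]

theorem S_pow_apply_lt (b : ℕ) (f : A) {n : ℕ} (h : n < b) : (S ^ b) f n = 0 := by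
  induction b generalizing n with
  | zero => omega
  | succ b ih =>
    rw [pow_succ']
    show S ((S ^ b) f) n = 0
    rcases n with _ | n
    · simp
    · rw [S_succ]
      exact ih (by omega)

theorem summable_ev (f : A) {ξ : ℂ} (hξ : ‖ξ‖ ≤ 1 / 2) : Summable fun n : ℕ => f n * ξ ^ n := by
  refine Summable.of_norm_bounded (g := fun n : ℕ => ‖f‖ * (1 / 2 : ℝ) ^ n)
    ((summable_geometric_of_lt_one (by norm_num) (by norm_num)).mul_left _) fun n => ?_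
  rw [norm_mul, norm_pow]
  exact mul_le_mul (A_norm_coe f _) (pow_le_pow_left₀ (norm_nonneg _) hξ n)
    (by positivity) (norm_nonneg _)

/-- the sum of the series with the coefficients `f` at the point `ξ` -/
noncomputable def ev (ξ : ℂ) (f : A) : ℂ := ∑' n : ℕ, f n * ξ ^ n

theorem ev_add {ξ : ℂ} (hξ : ‖ξ‖ ≤ 1 / 2) (f g : A) : ev ξ (f + g) = ev ξ f + ev ξ g := by
  unfold ev
  rw [← (summable_ev f hξ).tsum_add (summable_ev g hξ)]
  congr 1
  funext n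
  rw [A_add, add_mul]

theorem ev_smul (ξ c : ℂ) (f : A) : ev ξ (c • f) = c * ev ξ f := by
  unfold ev
  rw [← tsum_mul_left]
  congr 1
  funext n
  rw [A_smul, mul_assoc]

theorem abs_ev_le {ξ : ℂ} (hξ : ‖ξ‖ ≤ 1 / 2) (f : A) : ‖ev ξ f‖ ≤ 2 * ‖f‖ := by
  have h1 : HasSum (fun n : ℕ => ‖f‖ * (1 / 2 : ℝ) ^ n) (‖f‖ * 2) :=
    hasSum_geometric_two.mul_left _
  have h2 := tsum_of_norm_bounded (f := fun n : ℕ => f n * ξ ^ n) h1 fun n => by
    rw [norm_mul, norm_pow]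
    exact mul_le_mul (A_norm_coe f _) (pow_le_pow_left₀ (norm_nonneg _) hξ n)
      (by positivity) (norm_nonneg _)
  rw [mul_comm] at h2
  exact h2

/-- evaluation as a continuous linear functional -/
noncomputable def evL {ξ : ℂ} (hξ : ‖ξ‖ ≤ 1 / 2) : A →L[ℂ] ℂ :=
  LinearMap.mkContinuous
    { toFun := ev ξ
      map_add' := ev_add hξ
      map_smul' := fun c f => ev_smul ξ c f } 2 fun f => abs_ev_le hξ f

theorem evL_apply {ξ : ℂ} (hξ : ‖ξ‖ ≤ 1 / 2) (f : A) : evL hξ f = ev ξ f := rfl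

theorem ev_T {ξ : ℂ} (hξ : ‖ξ‖ ≤ 1 / 2) (f : A) : ev ξ f = f 0 + ξ * ev ξ (T f) := by
  unfold ev
  rw [(summable_ev f hξ).tsum_eq_zero_add, pow_zero, mul_one, ← tsum_mul_left]
  congr 2
  funext n
  rw [T_apply, pow_succ]
  ring

theorem ev_S {ξ : ℂ} (hξ : ‖ξ‖ ≤ 1 / 2) (f : A) : ev ξ (S f) = ξ * ev ξ f := by
  rw [ev_T hξ, S_zero, zero_add]
  have h : T (S f) = f := by
    have := T_mul_S
    calc T (S f) = (T * S) f := rfl
      _ = f := by rw [T_mul_S]; rfl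
  rw [h]

theorem ev_S_pow {ξ : ℂ} (hξ : ‖ξ‖ ≤ 1 / 2) (n : ℕ) (f : A) :
    ev ξ ((S ^ n) f) = ξ ^ n * ev ξ f := by
  induction n with
  | zero => simp
  | succ n ih =>
    rw [pow_succ']
    show ev ξ (S ((S ^ n) f)) = _
    rw [ev_S hξ, ih, pow_succ']
    ring

theorem apply_zero_eq {f : A} (hf : ∀ ξ : ℂ, ξ ≠ 0 → ‖ξ‖ ≤ 1 / 2 → ev ξ f = 0) : f 0 = 0 := by
  by_contra hne
  have h0 : 0 < ‖f 0‖ := norm_pos_iff.2 hne
  have hN : 0 ≤ ‖T f‖ := norm_nonneg _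
  obtain ⟨x, hx0, hx1, hx2⟩ : ∃ x : ℝ, 0 < x ∧ x ≤ 1 / 2 ∧ x * (2 * ‖T f‖ + 1) < ‖f 0‖ := by
    refine ⟨min (1 / 2) (‖f 0‖ / (2 * (2 * ‖T f‖ + 1))), by positivity, min_le_left _ _, ?_⟩
    have h1 : min (1 / 2) (‖f 0‖ / (2 * (2 * ‖T f‖ + 1))) * (2 * ‖T f‖ + 1) ≤
        ‖f 0‖ / (2 * (2 * ‖T f‖ + 1)) * (2 * ‖T f‖ + 1) :=
      mul_le_mul_of_nonneg_right (min_le_right _ _) (by positivity)
    have h2 : ‖f 0‖ / (2 * (2 * ‖T f‖ + 1)) * (2 * ‖T f‖ + 1) = ‖f 0‖ / 2 := by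
      field_simp
    linarith only [h2, h1, h0]
  obtain ⟨ξ, hξ⟩ : ∃ ξ : ℂ, ξ = (x : ℂ) := ⟨_, rfl⟩
  have hξn : ‖ξ‖ = x := by rw [hξ, Complex.norm_real, Real.norm_eq_abs, abs_of_pos hx0]
  have hξ0 : ξ ≠ 0 := by
    rw [← norm_pos_iff, hξn]
    exact hx0
  have hξa : ‖ξ‖ ≤ 1 / 2 := by rwa [hξn]
  have h1 := ev_T hξa f
  rw [hf ξ hξ0 hξa] at h1
  have h2 : ‖f 0‖ = x * ‖ev ξ (T f)‖ := by
    have : f 0 = -(ξ * ev ξ (T f)) := eq_neg_of_add_eq_zero_left h1.symm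
    rw [this, norm_neg, norm_mul, hξn]
  have h3 := abs_ev_le hξa (T f)
  have h4 : x * ‖ev ξ (T f)‖ ≤ x * (2 * ‖T f‖) := mul_le_mul_of_nonneg_left h3 hx0.le
  linarith only [hx0, hx2, h2, h4]

theorem ev_inj {f : A} (h : ∀ ξ : ℂ, ξ ≠ 0 → ‖ξ‖ ≤ 1 / 2 → ev ξ f = 0) : f = 0 := by
  have key : ∀ n : ℕ, ∀ f : A, (∀ ξ : ℂ, ξ ≠ 0 → ‖ξ‖ ≤ 1 / 2 → ev ξ f = 0) → f n = 0 := by
    intro n
    induction n with
    | zero =>
      intro f hf
      exact apply_zero_eq hf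
    | succ n ih =>
      intro f hf
      rw [← T_apply]
      refine ih (T f) fun ξ hξ0 hξ => ?_
      have h1 := ev_T hξ f
      rw [hf ξ hξ0 hξ, apply_zero_eq hf, zero_add] at h1
      rcases mul_eq_zero.1 h1.symm with h2 | h2
      · exact absurd h2 hξ0
      · exact h2
  exact A_ext fun n => key n f h

theorem op_ext {B C : A →L[ℂ] A}
    (h : ∀ ξ : ℂ, ξ ≠ 0 → ‖ξ‖ ≤ 1 / 2 → ∀ f, ev ξ (B f) = ev ξ (C f)) : B = C := by
  refine ContinuousLinearMap.ext fun f => ?_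
  have h1 : B f - C f = 0 := by
    refine ev_inj fun ξ h0 hξ => ?_
    have h2 := (evL hξ).map_sub (B f) (C f)
    rw [evL_apply, evL_apply, evL_apply] at h2
    rw [h2, h ξ h0 hξ, sub_self]
  exact sub_eq_zero.1 h1

section construction

variable {Y : Type} [NormedAddCommGroup Y] [NormedSpace ℂ Y]

/-- the part of degree `k` in `y` and `l` in `x`, with `x = ρ S` -/
noncomputable def Qt (p : FormalMultilinearSeries ℂ (ℂ × Y) ℂ) (ρ : ℝ≥0) (k l : ℕ) :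
    Y [×k]→L[ℂ] (A →L[ℂ] A) :=
  ((p.changeOriginSeries k l fun _ => ((1 : ℂ), (0 : Y))).compContinuousLinearMap
    fun _ => ContinuousLinearMap.inr ℂ ℂ Y).smulRight ((ρ : ℂ) ^ l • S ^ l)

theorem norm_inr_le : ‖ContinuousLinearMap.inr ℂ ℂ Y‖ ≤ 1 := by
  refine ContinuousLinearMap.opNorm_le_bound _ zero_le_one fun y => ?_
  simp

theorem nnnorm_Qt_le (p : FormalMultilinearSeries ℂ (ℂ × Y) ℂ) (ρ : ℝ≥0) (k l : ℕ) :
    ‖Qt p ρ k l‖₊ ≤ ∑' _ : { s : Finset (Fin (k + l)) // s.card = l }, ‖p (k + l)‖₊ * ρ ^ l := by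
  have h1 := p.nnnorm_changeOriginSeries_apply_le_tsum k l ((1 : ℂ), (0 : Y))
  have h2 : ‖((1 : ℂ), (0 : Y))‖₊ = 1 := by
    simp [Prod.nnnorm_def]
  rw [h2, one_pow] at h1
  simp only [mul_one] at h1
  have h3 : ‖Qt p ρ k l‖ ≤ ‖p.changeOriginSeries k l fun _ => ((1 : ℂ), (0 : Y))‖ * (ρ : ℝ) ^ l := by
    unfold Qt
    rw [ContinuousMultilinearMap.norm_smulRight]
    refine mul_le_mul ?_ ?_ (norm_nonneg _) (norm_nonneg _)
    · refine (ContinuousMultilinearMap.norm_compContinuousLinearMap_le _ _).trans ?_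
      refine mul_le_of_le_one_right (norm_nonneg _) ?_
      exact Finset.prod_le_one (fun _ _ => ContinuousLinearMap.opNorm_nonneg _)
        fun _ _ => norm_inr_le
    · rw [norm_smul, norm_pow, norm_nn]
      exact mul_le_of_le_one_right (by positivity) (norm_S_pow_le l)
  have h4 : ‖Qt p ρ k l‖₊ ≤ ‖p.changeOriginSeries k l fun _ => ((1 : ℂ), (0 : Y))‖₊ * ρ ^ l := by
    exact_mod_cast h3
  refine h4.trans ?_
  rw [NNReal.tsum_mul_right]
  exact mul_le_mul_of_nonneg_right h1 (by positivity)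

/-- the power series of the operator valued function -/
noncomputable def Q (p : FormalMultilinearSeries ℂ (ℂ × Y) ℂ) (ρ : ℝ≥0) :
    FormalMultilinearSeries ℂ Y (A →L[ℂ] A) := fun k => ∑' l, Qt p ρ k l

variable {p : FormalMultilinearSeries ℂ (ℂ × Y) ℂ} {ρ : ℝ≥0}

theorem hasSum_bound (hρ : (ρ : ℝ≥0∞) < p.radius) (k : ℕ) :
    HasSum (fun l : ℕ => ∑' _ : { s : Finset (Fin (k + l)) // s.card = l },
      ‖p (k + l)‖₊ * ρ ^ l)
      (∑' s : Σ l : ℕ, { s : Finset (Fin (k + l)) // s.card = l }, ‖p (k + s.1)‖₊ * ρ ^ s.1) := by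
  have h := p.changeOriginSeries_summable_aux₂ hρ k
  refine HasSum.sigma h.hasSum fun l => ?_
  exact ((NNReal.summable_sigma.1 h).1 l).hasSum

theorem complete_mm (k : ℕ) : CompleteSpace (Y [×k]→L[ℂ] (A →L[ℂ] A)) := inferInstance

theorem summable_Qt (hρ : (ρ : ℝ≥0∞) < p.radius) (k : ℕ) : Summable (Qt p ρ k) := by
  have h1 : Summable fun l => ‖Qt p ρ k l‖₊ :=
    NNReal.summable_of_le (fun l => nnnorm_Qt_le p ρ k l) (hasSum_bound hρ k).summable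
  have := complete_mm (Y := Y) k
  exact h1.of_nnnorm

theorem nnnorm_Q_le (hρ : (ρ : ℝ≥0∞) < p.radius) (k : ℕ) :
    ‖Q p ρ k‖₊ ≤
      ∑' s : Σ l : ℕ, { s : Finset (Fin (k + l)) // s.card = l }, ‖p (k + s.1)‖₊ * ρ ^ s.1 :=
  tsum_of_nnnorm_bounded (hasSum_bound hρ k) fun l => nnnorm_Qt_le p ρ k l

theorem radius_Q {r : ℝ≥0} (hr : (ρ + r : ℝ≥0∞) < p.radius) : (r : ℝ≥0∞) ≤ (Q p ρ).radius := by
  have hρ : (ρ : ℝ≥0∞) < p.radius := (le_add_right le_rfl).trans_lt hr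
  apply FormalMultilinearSeries.le_radius_of_summable_nnnorm
  have this (k : ℕ) :
      ‖Q p ρ k‖₊ * r ^ k ≤
        (∑' s : Σ l : ℕ, { s : Finset (Fin (k + l)) // s.card = l }, ‖p (k + s.1)‖₊ * ρ ^ s.1) *
          r ^ k := by
    gcongr
    exact nnnorm_Q_le hρ k
  refine NNReal.summable_of_le this ?_
  simpa only [← NNReal.tsum_mul_right] using
    (NNReal.summable_sigma.1 (p.changeOriginSeries_summable_aux₁ hr)).2

theorem apply_Qt {ξ c : ℂ} (φ : (A →L[ℂ] A) →L[ℂ] ℂ) (hφ : ∀ l, φ (S ^ l) = ξ ^ l * c)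
    (k l : ℕ) (h : Y) : φ (Qt p ρ k l fun _ => h) =
      ((p.changeOriginSeries k l fun _ => ((ρ * ξ : ℂ), (0 : Y))) fun _ => ((0 : ℂ), h)) * c := by
  unfold Qt
  rw [ContinuousMultilinearMap.smulRight_apply, map_smul, map_smul, hφ]
  have h6 : (fun _ : Fin l => (((ρ * ξ : ℂ), (0 : Y)) : ℂ × Y)) =
      fun _ => (ρ * ξ : ℂ) • ((1 : ℂ), (0 : Y)) := by
    funext _
    simp
  rw [h6, ContinuousMultilinearMap.map_smul_univ, Finset.prod_const, Finset.card_univ,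
    Fintype.card_fin]
  simp only [ContinuousMultilinearMap.compContinuousLinearMap_apply,
    ContinuousLinearMap.inr_apply, _root_.smul_apply, smul_eq_mul, mul_pow]
  ring

theorem apply_Q (hρ : (ρ : ℝ≥0∞) < p.radius) {ξ c : ℂ} (hξ : ‖ξ‖ ≤ 1 / 2)
    (φ : (A →L[ℂ] A) →L[ℂ] ℂ) (hφ : ∀ l, φ (S ^ l) = ξ ^ l * c) (k : ℕ) (h : Y) :
    φ (Q p ρ k fun _ => h) = (p.changeOrigin ((ρ * ξ : ℂ), (0 : Y)) k fun _ => ((0 : ℂ), h)) * c := by
  have h1 : HasSum (fun l => φ (Qt p ρ k l fun _ => h)) (φ (Q p ρ k fun _ => h)) := by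
    have h2 := ContinuousMultilinearMap.hasSum_eval (summable_Qt hρ k).hasSum (fun _ => h)
    exact h2.mapL φ
  have hx : (((ρ * ξ : ℂ), (0 : Y)) : ℂ × Y) ∈ Metric.eball (0 : ℂ × Y) p.radius := by
    rw [mem_eball_zero_iff]
    refine lt_of_le_of_lt ?_ hρ
    rw [← ofReal_norm, ← ENNReal.ofReal_coe_nnreal]
    apply ENNReal.ofReal_le_ofReal
    rw [Prod.norm_mk, norm_zero, max_eq_left (norm_nonneg _), norm_mul, norm_nn]
    exact mul_le_of_le_one_right ρ.2 (by linarith only [hξ])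
  have h3 : HasSum (fun l => (p.changeOriginSeries k l fun _ => ((ρ * ξ : ℂ), (0 : Y)))
      fun _ => ((0 : ℂ), h)) (p.changeOrigin ((ρ * ξ : ℂ), (0 : Y)) k fun _ => ((0 : ℂ), h)) := by
    have h4 := (p.hasFPowerSeriesOnBall_changeOrigin k
      (lt_of_le_of_lt bot_le hρ)).hasSum hx
    rw [zero_add] at h4
    exact ContinuousMultilinearMap.hasSum_eval h4 _
  have h5 := h3.mul_right c
  have h7 : (fun l => φ (Qt p ρ k l fun _ => h)) = fun l =>
      ((p.changeOriginSeries k l fun _ => ((ρ * ξ : ℂ), (0 : Y))) fun _ => ((0 : ℂ), h)) * c := by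
    funext l
    exact apply_Qt φ hφ k l h
  rw [h7] at h1
  exact h1.unique h5

/-- Multiplication by an analytic function, as an analytic function with values in operators. -/
theorem exists_G {F : ℂ × Y → ℂ} {p0 : Y} (hF : AnalyticAt ℂ F (0, p0)) :
    ∃ ρ0 : ℝ≥0, 0 < ρ0 ∧ ∀ ρ : ℝ≥0, ρ ≤ ρ0 → ∃ G : Y → (A →L[ℂ] A),
      AnalyticAt ℂ G p0 ∧ ∀ᶠ y in 𝓝 p0, ∀ ξ : ℂ, ‖ξ‖ ≤ 1 / 2 → ∀ f : A,
        ev ξ (G y f) = F (ρ * ξ, y) * ev ξ f := by
  obtain ⟨p, R, hp⟩ := hF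
  obtain ⟨r0, hr0, hr0R⟩ := ENNReal.lt_iff_exists_nnreal_btwn.1 hp.r_pos
  have hr0' : 0 < r0 := by exact_mod_cast hr0
  refine ⟨r0 / 2, by positivity, fun ρ hρ0 => ?_⟩
  have hsum : ((ρ : ℝ≥0∞) + ((r0 / 2 : ℝ≥0) : ℝ≥0∞)) < R := by
    refine lt_of_le_of_lt ?_ hr0R
    rw [← ENNReal.coe_add, ENNReal.coe_le_coe]
    calc ρ + r0 / 2 ≤ r0 / 2 + r0 / 2 := by gcongr
      _ = r0 := add_halves r0
  have hsum' : ((ρ : ℝ≥0∞) + ((r0 / 2 : ℝ≥0) : ℝ≥0∞)) < p.radius := hsum.trans_le hp.r_le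
  have hρ : (ρ : ℝ≥0∞) < p.radius := (le_add_right le_rfl).trans_lt hsum'
  have hrad := radius_Q hsum'
  have hpos : 0 < (Q p ρ).radius :=
    lt_of_lt_of_le (ENNReal.coe_pos.2 (half_pos hr0')) hrad
  have hQ := (Q p ρ).hasFPowerSeriesOnBall hpos
  refine ⟨fun y => (Q p ρ).sum (y - p0), ?_, ?_⟩
  · have h1 := hQ.comp_sub p0
    rw [zero_add] at h1
    exact h1.analyticAt
  · have hball : Metric.ball p0 ((r0 / 2 : ℝ≥0) : ℝ) ∈ 𝓝 p0 :=
      Metric.ball_mem_nhds _ (NNReal.coe_pos.2 (half_pos hr0'))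
    filter_upwards [hball] with y hy ξ hξ f
    have hh : ‖y - p0‖ₑ < ((r0 / 2 : ℝ≥0) : ℝ≥0∞) := by
      rw [Metric.mem_ball, dist_eq_norm] at hy
      rw [← ofReal_norm, ← ENNReal.ofReal_coe_nnreal]
      exact (ENNReal.ofReal_lt_ofReal_iff (NNReal.coe_pos.2 (half_pos hr0'))).2 hy
    have h1 : HasSum (fun k => Q p ρ k fun _ => y - p0) ((Q p ρ).sum (y - p0)) := by
      have := hQ.hasSum (y := y - p0) (by
        rw [mem_eball_zero_iff]
        exact hh.trans_le hrad)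
      rwa [zero_add] at this
    have h2 := h1.mapL ((evL hξ) ∘L (ContinuousLinearMap.apply ℂ A f))
    have h3 : ∀ k, ((evL hξ) ∘L (ContinuousLinearMap.apply ℂ A f)) (Q p ρ k fun _ => y - p0) =
        (p.changeOrigin ((ρ * ξ : ℂ), (0 : Y)) k fun _ => ((0 : ℂ), y - p0)) * ev ξ f := by
      intro k
      refine apply_Q hρ hξ _ (fun l => ?_) k _
      exact ev_S_pow hξ l f
    simp only [h3] at h2
    have hv : ‖(((ρ * ξ : ℂ), (0 : Y)) : ℂ × Y)‖ₑ ≤ (ρ : ℝ≥0∞) := by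
      rw [← ofReal_norm, ← ENNReal.ofReal_coe_nnreal]
      apply ENNReal.ofReal_le_ofReal
      rw [Prod.norm_mk, norm_zero, max_eq_left (norm_nonneg _), norm_mul, norm_nn]
      exact mul_le_of_le_one_right ρ.2 (by linarith only [hξ])
    have hv' : ‖(((ρ * ξ : ℂ), (0 : Y)) : ℂ × Y)‖ₑ < R :=
      lt_of_le_of_lt hv ((le_add_right le_rfl).trans_lt hsum)
    have h4 := (hp.changeOrigin hv').hasSum (y := ((0 : ℂ), y - p0)) (by
      rw [mem_eball_zero_iff, lt_tsub_iff_right]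
      refine lt_of_le_of_lt ?_ hsum
      rw [add_comm]
      refine add_le_add hv ?_
      refine le_trans (le_of_eq ?_) hh.le
      rw [← ofReal_norm, ← ofReal_norm, Prod.norm_mk, norm_zero,
        max_eq_right (norm_nonneg _)])
    have h5 : ((0 : ℂ), p0) + ((ρ * ξ : ℂ), (0 : Y)) + ((0 : ℂ), y - p0) = ((ρ * ξ : ℂ), y) := by
      simp
    rw [h5] at h4
    exact h2.unique (h4.mul_right (ev ξ f))

end construction

/-- the constant `1` -/
noncomputable def e0 : A := mkA (fun n => if n = 0 then 1 else 0) 1 fun n => by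
  split_ifs <;> simp

theorem e0_zero : e0 0 = 1 := by simp [e0]

theorem e0_succ (n : ℕ) : e0 (n + 1) = 0 := by simp [e0]

theorem ev_e0 {ξ : ℂ} : ev ξ e0 = 1 := by
  unfold ev
  rw [tsum_eq_single 0]
  · rw [e0_zero, pow_zero, mul_one]
  · intro n hn
    obtain ⟨m, rfl⟩ := Nat.exists_eq_succ_of_ne_zero hn
    rw [Nat.succ_eq_add_one, e0_succ, zero_mul]

/-- the polynomial -/
noncomputable def PP (b : ℕ) (ρ : ℂ) (w : A) : ℂ[X] :=
  X ^ b + ∑ n ∈ Finset.range b, C (w n * ρ ^ (b - n)) * X ^ n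

theorem PP_coeff (b : ℕ) (ρ : ℂ) (w : A) (i : ℕ) :
    (PP b ρ w).coeff i = (if i = b then 1 else 0) + if i < b then w i * ρ ^ (b - i) else 0 := by
  unfold PP
  rw [coeff_add, coeff_X_pow, finsetSum_coeff]
  congr 1
  simp only [coeff_C_mul_X_pow]
  rw [Finset.sum_ite_eq]
  simp only [Finset.mem_range]

theorem PP_degree_lt (b : ℕ) (ρ : ℂ) (w : A) :
    (∑ n ∈ Finset.range b, C (w n * ρ ^ (b - n)) * X ^ n).degree < (b : WithBot ℕ) := by
  rw [degree_lt_iff_coeff_zero]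
  intro m hm
  rw [finsetSum_coeff]
  simp only [coeff_C_mul_X_pow]
  rw [Finset.sum_ite_eq, if_neg]
  rw [Finset.mem_range]
  omega

theorem PP_monic (b : ℕ) (ρ : ℂ) (w : A) : (PP b ρ w).Monic :=
  monic_X_pow_add (PP_degree_lt b ρ w)

theorem PP_natDegree (b : ℕ) (ρ : ℂ) (w : A) : (PP b ρ w).natDegree = b := by
  apply natDegree_eq_of_degree_eq_some
  unfold PP
  rw [degree_add_eq_left_of_degree_lt, degree_X_pow]
  rw [degree_X_pow]
  exact PP_degree_lt b ρ w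

theorem PP_eval {b : ℕ} {ρ : ℂ} {w : A} (hw : ∀ n, w (n + b) = e0 n) (ξ : ℂ) :
    (PP b ρ w).eval (ρ * ξ) = ρ ^ b * ev ξ w := by
  unfold PP ev
  rw [tsum_eq_sum (s := Finset.range (b + 1))]
  · rw [Finset.sum_range_succ, eval_add, eval_pow, eval_X, eval_finsetSum, mul_add,
      Finset.mul_sum]
    have h1 := hw 0
    rw [zero_add, e0_zero] at h1
    rw [h1, one_mul, mul_pow, add_comm]
    congr 1
    refine Finset.sum_congr rfl fun n hn => ?_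
    rw [Finset.mem_range] at hn
    rw [eval_mul, eval_C, eval_pow, eval_X, mul_pow]
    have h2 : ρ ^ b = ρ ^ (b - n) * ρ ^ n := by
      rw [← pow_add]
      congr 1
      omega
    rw [h2]
    ring
  · intro n hn
    rw [Finset.mem_range, not_lt] at hn
    obtain ⟨m, rfl⟩ := Nat.exists_eq_add_of_le hn
    have h1 := hw (m + 1)
    rw [e0_succ] at h1
    rw [show b + 1 + m = m + 1 + b by omega, h1, zero_mul]

theorem norm_cf_le (n : ℕ) : ‖cf n‖ ≤ 1 := LinearMap.mkContinuous_norm_le _ zero_le_one _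

/-- evaluation as an analytic function of the point -/
noncomputable def evM (ξ : ℂ) : A →L[ℂ] ℂ := ∑' n : ℕ, ξ ^ n • cf n

theorem norm_term_le {ξ : ℂ} (hξ : ‖ξ‖ ≤ 1 / 2) (n : ℕ) : ‖ξ ^ n • cf n‖ ≤ (1 / 2 : ℝ) ^ n := by
  rw [norm_smul, norm_pow]
  calc ‖ξ‖ ^ n * ‖cf n‖ ≤ (1 / 2 : ℝ) ^ n * 1 :=
        mul_le_mul (pow_le_pow_left₀ (norm_nonneg _) hξ n) (norm_cf_le n) (norm_nonneg _)
          (by positivity)
    _ = _ := mul_one _

theorem summable_half : Summable fun n : ℕ => (1 / 2 : ℝ) ^ n :=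
  summable_geometric_of_lt_one (by norm_num) (by norm_num)

theorem evM_apply {ξ : ℂ} (hξ : ‖ξ‖ ≤ 1 / 2) (f : A) : evM ξ f = ev ξ f := by
  have h1 : Summable fun n : ℕ => ξ ^ n • cf n :=
    Summable.of_norm_bounded summable_half (norm_term_le hξ)
  have h2 : HasSum (fun n : ℕ => (ξ ^ n • cf n) f) (evM ξ f) :=
    h1.hasSum.mapL (ContinuousLinearMap.apply ℂ ℂ f)
  have h3 := (summable_ev f hξ).hasSum
  have h4 : (fun n : ℕ => (ξ ^ n • cf n) f) = fun n : ℕ => f n * ξ ^ n := by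
    funext n
    show ξ ^ n * f n = f n * ξ ^ n
    ring
  rw [h4] at h2
  exact h2.unique h3

theorem analyticAt_evM : AnalyticAt ℂ evM 0 := by
  have h : DifferentiableOn ℂ evM (Metric.ball (0 : ℂ) (1 / 2)) := by
    refine Complex.differentiableOn_tsum_of_summable_norm summable_half (fun n => ?_)
      Metric.isOpen_ball fun n w hw => ?_
    · exact ((differentiable_id.pow n).smul_const (cf n)).differentiableOn
    · rw [mem_ball_zero_iff] at hw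
      exact norm_term_le hw.le n
  exact h.analyticAt (Metric.ball_mem_nhds _ (by norm_num))

end WP

variable {Y : Type} [NormedAddCommGroup Y] [NormedSpace ℂ Y]

open WP in
/-- Weierstrass preparation theorem for holomorphic functions. -/
theorem weierstrass {F : ℂ × Y → ℂ} {p0 : Y} (hF : AnalyticAt ℂ F (0, p0)) {b : ℕ} {u : ℂ → ℂ}
    (hu : AnalyticAt ℂ u 0) (hu0 : u 0 ≠ 0) (hFu : ∀ᶠ x in 𝓝 (0 : ℂ), F (x, p0) = x ^ b * u x) :
    ∃ (P : Y → ℂ[X]) (v : ℂ × Y → ℂ), (∀ y, (P y).Monic ∧ (P y).natDegree = b) ∧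
      (∀ i, AnalyticAt ℂ (fun y => (P y).coeff i) p0) ∧ P p0 = X ^ b ∧
      AnalyticAt ℂ v (0, p0) ∧ v (0, p0) ≠ 0 ∧
      ∀ᶠ z : ℂ × Y in 𝓝 (0, p0), F z * v z = (P z.2).eval z.1 := by
  have hU : AnalyticAt ℂ (fun z : ℂ × Y => u z.1) (0, p0) :=
    AnalyticAt.comp_of_eq hu analyticAt_fst rfl
  have hV : AnalyticAt ℂ (fun z : ℂ × Y => (u z.1)⁻¹) (0, p0) := hU.inv hu0
  obtain ⟨ρ1, hρ1, H1⟩ := exists_G hF
  obtain ⟨ρ2, hρ2, H2⟩ := exists_G hU
  obtain ⟨ρ3, hρ3, H3⟩ := exists_G hV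
  have hune : ∀ᶠ x in 𝓝 (0 : ℂ), u x ≠ 0 := hu.continuousAt.eventually_ne hu0
  obtain ⟨δ, hδ, hδ'⟩ := Metric.eventually_nhds_iff.1 (hFu.and hune)
  obtain ⟨ρ, hρpos, hρle1, hρle2, hρle3, hρδ⟩ : ∃ ρ : NNReal, 0 < ρ ∧ ρ ≤ ρ1 ∧ ρ ≤ ρ2 ∧ ρ ≤ ρ3 ∧
      (ρ : ℝ) ≤ δ := by
    refine ⟨min (min ρ1 ρ2) (min ρ3 ⟨δ, hδ.le⟩), ?_, ?_, ?_, ?_, ?_⟩
    · exact lt_min (lt_min hρ1 hρ2) (lt_min hρ3 hδ)
    · exact (min_le_left _ _).trans (min_le_left _ _)
    · exact (min_le_left _ _).trans (min_le_right _ _)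
    · exact (min_le_right _ _).trans (min_le_left _ _)
    · exact (NNReal.coe_le_coe.2 ((min_le_right _ _).trans (min_le_right _ _)))
  have hρ0 : (0 : ℝ) < ρ := hρpos
  obtain ⟨G, hGa, hG⟩ := H1 ρ hρle1
  obtain ⟨GU, -, hGU⟩ := H2 ρ hρle2
  obtain ⟨GV, -, hGV⟩ := H3 ρ hρle3
  have hG0 := hG.self_of_nhds
  have hU0 := hGU.self_of_nhds
  have hV0 := hGV.self_of_nhds
  obtain ⟨U, hUdef⟩ : ∃ U, U = GU p0 := ⟨_, rfl⟩
  obtain ⟨V, hVdef⟩ : ∃ V, V = GV p0 := ⟨_, rfl⟩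
  rw [← hUdef] at hU0
  rw [← hVdef] at hV0
  have hsmall : ∀ ξ : ℂ, ‖ξ‖ ≤ 1 / 2 →
      F (ρ * ξ, p0) = (ρ * ξ) ^ b * u (ρ * ξ) ∧ u (ρ * ξ) ≠ 0 := by
    intro ξ hξ
    refine hδ' ?_
    rw [dist_zero_right, norm_mul, norm_nn]
    nlinarith only [hδ, hρδ, hξ, norm_nonneg ξ]
  have hUV : U * V = 1 := by
    refine op_ext fun ξ _ hξ f => ?_
    show ev ξ (U (V f)) = ev ξ f
    rw [hU0 ξ hξ, hV0 ξ hξ, ← mul_assoc, mul_inv_cancel₀ (hsmall ξ hξ).2, one_mul]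
  have hVU : V * U = 1 := by
    refine op_ext fun ξ _ hξ f => ?_
    show ev ξ (V (U f)) = ev ξ f
    rw [hV0 ξ hξ, hU0 ξ hξ, ← mul_assoc, inv_mul_cancel₀ (hsmall ξ hξ).2, one_mul]
  have hGp : G p0 = (ρ : ℂ) ^ b • (S ^ b * U) := by
    refine op_ext fun ξ _ hξ f => ?_
    have h1 : ((ρ : ℂ) ^ b • (S ^ b * U)) f = (ρ : ℂ) ^ b • (S ^ b) (U f) := rfl
    rw [hG0 ξ hξ, h1, ev_smul, ev_S_pow hξ, hU0 ξ hξ, (hsmall ξ hξ).1]
    ring
  obtain ⟨K, hK⟩ : ∃ K : Y → (A →L[ℂ] A), K = fun y => T ^ b * G y := ⟨_, rfl⟩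
  have hKa : AnalyticAt ℂ K p0 := by
    rw [hK]
    exact analyticAt_const.mul hGa
  have hKp : K p0 = (ρ : ℂ) ^ b • U := by
    rw [hK]
    simp only
    rw [hGp, mul_smul_comm, ← mul_assoc, T_pow_mul_S_pow, one_mul]
  have hρc : (ρ : ℂ) ≠ 0 := by
    rw [← norm_pos_iff, norm_nn]
    exact hρ0
  have hρb : (ρ : ℂ) ^ b ≠ 0 := pow_ne_zero _ hρc
  let κ : (A →L[ℂ] A)ˣ := ⟨K p0, ((ρ : ℂ) ^ b)⁻¹ • V, by
    rw [hKp, smul_mul_smul_comm, hUV, mul_inv_cancel₀ hρb, one_smul], by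
    rw [hKp, smul_mul_smul_comm, hVU, inv_mul_cancel₀ hρb, one_smul]⟩
  have hinv : AnalyticAt ℂ (fun y => Ring.inverse (K y)) p0 :=
    AnalyticAt.comp_of_eq (analyticAt_inverse κ) hKa rfl
  obtain ⟨q, hq⟩ : ∃ q : Y → A, q = fun y => Ring.inverse (K y) e0 := ⟨_, rfl⟩
  obtain ⟨w, hw⟩ : ∃ w : Y → A, w = fun y => G y (q y) := ⟨_, rfl⟩
  have hqc : ContinuousAt q p0 := by
    rw [hq]
    exact ((ContinuousLinearMap.apply ℂ A e0).continuous.continuousAt).comp hinv.continuousAt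
  have hwa : ∀ n, AnalyticAt ℂ (fun y => w y n) p0 := by
    intro n
    have h1 : AnalyticAt ℂ (fun y => G y * Ring.inverse (K y)) p0 := hGa.mul hinv
    have h2 := ((cf n) ∘L (ContinuousLinearMap.apply ℂ A e0)).analyticAt (G p0 *
      Ring.inverse (K p0))
    have h3 := AnalyticAt.comp_of_eq h2 h1 rfl
    rw [hw, hq]
    exact h3
  have hunit : ∀ᶠ y in 𝓝 p0, IsUnit (K y) :=
    hKa.continuousAt.eventually (Units.isOpen.mem_nhds ⟨κ, rfl⟩)
  have hwb : ∀ y, IsUnit (K y) → ∀ n, w y (n + b) = e0 n := by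
    intro y hy n
    rw [← T_pow_apply]
    have h1 : (T ^ b) (w y) = (K y * Ring.inverse (K y)) e0 := by
      rw [hw, hq, hK]
      rfl
    rw [h1, Ring.mul_inverse_cancel _ hy]
    rfl
  have hgw : ∀ᶠ y in 𝓝 p0, ∀ ξ : ℂ, ‖ξ‖ ≤ 1 / 2 → ev ξ (w y) = F (ρ * ξ, y) * ev ξ (q y) := by
    filter_upwards [hG] with y hy ξ hξ
    rw [hw]
    exact hy ξ hξ (q y)
  have hqa : AnalyticAt ℂ q p0 := by
    have h2 := (ContinuousLinearMap.apply ℂ A e0).analyticAt (Ring.inverse (K p0))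
    have h3 := AnalyticAt.comp_of_eq h2 hinv rfl
    rw [hq]
    exact h3
  have hq0 : ev 0 (q p0) ≠ 0 := by
    have h1 : ev 0 (K p0 (q p0)) = 1 := by
      have h2 : K p0 (q p0) = (K p0 * Ring.inverse (K p0)) e0 := by
        rw [hq]
        rfl
      rw [h2, Ring.mul_inverse_cancel _ ⟨κ, rfl⟩]
      exact ev_e0
    have h3 : ev 0 (K p0 (q p0)) = (ρ : ℂ) ^ b * (u (ρ * 0) * ev 0 (q p0)) := by
      have h4 : K p0 (q p0) = (ρ : ℂ) ^ b • U (q p0) := by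
        rw [hKp]
        rfl
      rw [h4, ev_smul, hU0 0 (by rw [norm_zero]; norm_num)]
    intro h5
    rw [h1, h5, mul_zero, mul_zero] at h3
    exact one_ne_zero h3
  have hva : AnalyticAt ℂ (fun z : ℂ × Y => evM (z.1 / ρ) (q z.2)) (0, p0) := by
    have h1 : AnalyticAt ℂ (fun z : ℂ × Y => evM (z.1 / ρ)) (0, p0) := by
      refine AnalyticAt.comp_of_eq analyticAt_evM (analyticAt_fst.div_const) ?_
      simp
    have h2 : AnalyticAt ℂ (fun z : ℂ × Y => q z.2) (0, p0) :=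
      AnalyticAt.comp_of_eq hqa analyticAt_snd rfl
    exact AnalyticAt.comp_of_eq
      ((ContinuousLinearMap.id ℂ (A →L[ℂ] ℂ)).analyticAt_bilinear
        (evM ((0 : ℂ × Y).1 / ρ), q p0)) (h1.prod h2) rfl
  have hnorm0 : ‖(0 : ℂ)‖ ≤ 1 / 2 := by rw [norm_zero]; norm_num
  refine ⟨fun y => PP b ρ (w y), fun z => (ρ : ℂ) ^ b * evM (z.1 / ρ) (q z.2),
    fun y => ⟨PP_monic _ _ _, PP_natDegree _ _ _⟩, ?_, ?_, analyticAt_const.mul hva, ?_, ?_⟩
  · intro i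
    simp only [PP_coeff]
    by_cases h : i < b
    · simp only [h, if_true]
      exact analyticAt_const.add ((hwa i).mul analyticAt_const)
    · simp only [h, if_false]
      exact analyticAt_const
  · show PP b ρ (w p0) = X ^ b
    unfold PP
    rw [Finset.sum_eq_zero, add_zero]
    intro n hn
    rw [Finset.mem_range] at hn
    have h1 : w p0 n = 0 := by
      have h2 : w p0 = (ρ : ℂ) ^ b • (S ^ b) (U (q p0)) := by
        rw [hw]
        simp only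
        rw [hGp]
        rfl
      rw [h2, A_smul, S_pow_apply_lt b _ hn, mul_zero]
    rw [h1, zero_mul, C_0, zero_mul]
  · show (ρ : ℂ) ^ b * evM (0 / ρ) (q p0) ≠ 0
    rw [zero_div, evM_apply hnorm0]
    exact mul_ne_zero hρb hq0
  · have hsm : ∀ᶠ z : ℂ × Y in 𝓝 (0, p0), ‖z.1 / (ρ : ℂ)‖ < 1 / 2 := by
      have h1 : ContinuousAt (fun z : ℂ × Y => ‖z.1 / (ρ : ℂ)‖) (0, p0) := by fun_prop
      refine h1.eventually_lt continuousAt_const ?_
      simp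
    have hsnd : Tendsto (Prod.snd : ℂ × Y → Y) (𝓝 (0, p0)) (𝓝 p0) := continuousAt_snd
    filter_upwards [hsnd.eventually hunit, hsnd.eventually hgw, hsm] with z hy1 hy2 hz
    obtain ⟨ξ, hξdef⟩ : ∃ ξ : ℂ, ξ = z.1 / ρ := ⟨_, rfl⟩
    have hxξ : z.1 = ρ * ξ := by
      rw [hξdef]
      field_simp
    have hξ : ‖ξ‖ ≤ 1 / 2 := by
      rw [hξdef]
      exact hz.le
    have h1 := hy2 ξ hξ
    have h2 := PP_eval (ρ := (ρ : ℂ)) (hwb z.2 hy1) ξ
    rw [← hξdef, evM_apply hξ, hxξ, h2, h1, ← hxξ]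
    have h3 : F z = F (z.1, z.2) := rfl
    rw [h3]
    ring

end Vale.Agent.P267.H823
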